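import Vale.Agent.P167.H947.Q.Pf7

/-!
# P167, general `q`, block Q-SRSW: the parafermionic identity on a rectangle, final form
-/

namespace Vale.Agent.P167.H947.Q

open Finset Relation Vale.Agent.P167.FK Vale.Agent.P167.BR Vale.Agent.P167.Top

variable {a b H n : ℕ}

/-- The arithmetic of the exponents: the identity with one sum over the free part and one over the
wired part. -/
theorem reduce (ha : a % 2 = 1) (hb : b % 2 = 1) (hH : H % 2 = 0) (hn : n % 2 = 0) (hnb : n < b)
    {lam : ℂ} (hl : lam ≠ 0) (hl2 : lam ^ 2 ≠ 1) (p d : ℕ → ℂ) (hp0 : p 0 = 1)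
    (hpk : p (rN a b H - n) = 1)
    (h : (∑ z ∈ range (rN a b H - n), if Odd z then lam ^ tau a b H n z * p (z + 1) else 0) +
      (∑ z ∈ Ico (rN a b H - n) (rN a b H), if Odd z then lam ^ tau a b H n z * d z else 0) =
    (∑ z ∈ range (rN a b H - n), if Even z then lam ^ tau a b H n z * p z else 0) +
      (∑ z ∈ Ico (rN a b H - n) (rN a b H),
        if Even z then lam ^ tau a b H n z * d (z + 1) else 0)) :
    1 + (∑ z ∈ Ico (rN a b H - n) (rN a b H), if Odd z then d z else 0) =
      ∑ z ∈ Ico 1 (rN a b H - n), if Even z then lam ^ (sd a b H z - 2) * p z else 0 := by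
  have hN : rN a b H = 2 * (a + b) + 2 * H := rfl
  set N := rN a b H with hN'
  set k := N - n with hk
  have hk1 : k % 2 = 0 := by omega
  have hk2 : N % 2 = 0 := by omega
  -- first sum
  have e1 : (∑ z ∈ range k, if Odd z then lam ^ tau a b H n z * p (z + 1) else 0) =
      (∑ z ∈ Ico 1 k, if Even z then lam ^ (sd a b H z - 2) * p z else 0) + lam ^ 2 := by
    have h1 : ∀ z ∈ Ico 0 k, (if Odd z then lam ^ tau a b H n z * p (z + 1) else 0) =
        (fun m : ℕ => if Even m then lam ^ (sd a b H (m - 1) - 2) * p m else 0) (z + 1) := by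
      intro z _
      simp only
      by_cases ho : Odd z
      · have hz := Nat.odd_iff.1 ho
        rw [if_pos ho, if_pos (by rw [Nat.even_iff]; omega)]
        unfold tau
        rw [if_pos hz, Nat.add_sub_cancel]
      · have hz := ho
        rw [Nat.odd_iff] at hz
        rw [if_neg ho, if_neg (by rw [Nat.even_iff]; omega)]
    rw [Finset.range_eq_Ico, Finset.sum_congr rfl h1, Finset.sum_Ico_add' (fun m : ℕ =>
      if Even m then lam ^ (sd a b H (m - 1) - 2) * p m else 0) 0 k 1, zero_add,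
      Finset.sum_Ico_succ_top (by omega)]
    congr 1
    · refine Finset.sum_congr rfl fun m hm => ?_
      rw [Finset.mem_Ico] at hm
      by_cases he : Even m
      · have hme := Nat.even_iff.1 he
        rw [if_pos he, if_pos he]
        have s1 := sd_spec a b H (m - 1)
        have s2 := sd_spec a b H m
        rw [show sd a b H (m - 1) = sd a b H m by omega]
      · rw [if_neg he, if_neg he]
    · rw [if_pos (Nat.even_iff.2 hk1), hpk, mul_one]
      have s1 := sd_spec a b H (k - 1)
      rw [show sd a b H (k - 1) = 4 by omega]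
      norm_num
  have e2 : (∑ z ∈ Ico k N, if Odd z then lam ^ tau a b H n z * d z else 0) =
      lam ^ 2 * ∑ z ∈ Ico k N, if Odd z then d z else 0 := by
    rw [Finset.mul_sum]
    refine Finset.sum_congr rfl fun z hz => ?_
    rw [Finset.mem_Ico] at hz
    by_cases ho : Odd z
    · rw [if_pos ho, if_pos ho]
      unfold tau
      rw [if_pos (Nat.odd_iff.1 ho)]
      have s1 := sd_spec a b H z
      rw [show sd a b H z = 4 by omega]
      norm_num
    · rw [if_neg ho, if_neg ho, mul_zero]
  have e3 : (∑ z ∈ range k, if Even z then lam ^ tau a b H n z * p z else 0) =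
      1 + ∑ z ∈ Ico 1 k, if Even z then lam ^ (sd a b H z) * p z else 0 := by
    rw [Finset.range_eq_Ico, Finset.sum_eq_sum_Ico_succ_bot (by omega)]
    congr 1
    · rw [if_pos (by decide), hp0, mul_one]
      unfold tau
      have s1 := sd_spec a b H 0
      rw [if_neg (by omega), if_pos (by omega), show sd a b H 0 = 0 by omega, zpow_zero]
    · refine Finset.sum_congr rfl fun z hz => ?_
      rw [Finset.mem_Ico] at hz
      by_cases he : Even z
      · have hze := Nat.even_iff.1 he
        rw [if_pos he, if_pos he]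
        unfold tau
        rw [if_neg (by omega), if_pos (by omega)]
      · rw [if_neg he, if_neg he]
  have e4 : (∑ z ∈ Ico k N, if Even z then lam ^ tau a b H n z * d (z + 1) else 0) =
      ∑ z ∈ Ico k N, if Odd z then d z else 0 := by
    have h1 : ∀ z ∈ Ico k N, (if Even z then lam ^ tau a b H n z * d (z + 1) else 0) =
        (fun m : ℕ => if Odd m then d m else 0) (z + 1) := by
      intro z hz
      rw [Finset.mem_Ico] at hz
      simp only
      by_cases he : Even z
      · have hze := Nat.even_iff.1 he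
        rw [if_pos he, if_pos (by rw [Nat.odd_iff]; omega)]
        unfold tau
        have s1 := sd_spec a b H z
        rw [if_neg (by omega), if_neg (by omega), show sd a b H z = 4 by omega]
        norm_num
      · have hze := he
        rw [Nat.even_iff] at hze
        rw [if_neg he, if_neg (by rw [Nat.odd_iff]; omega)]
    rw [Finset.sum_congr rfl h1, Finset.sum_Ico_add' (fun m : ℕ =>
      if Odd m then d m else 0) k N 1]
    have h2 : ∀ f : ℕ → ℂ, f k = 0 → f N = 0 → ∑ m ∈ Ico (k + 1) (N + 1), f m =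
        ∑ m ∈ Ico k N, f m := by
      intro f h3 h4
      have h5 : ∑ m ∈ Ico k (N + 1), f m = ∑ m ∈ Ico k N, f m + f N :=
        Finset.sum_Ico_succ_top (by omega) f
      have h6 := Finset.sum_eq_sum_Ico_succ_bot (show k < N + 1 by omega) f
      rw [h6, h3, h4, zero_add, add_zero] at h5
      exact h5
    refine h2 _ ?_ ?_
    · rw [if_neg (by rw [Nat.odd_iff]; omega)]
    · rw [if_neg (by rw [Nat.odd_iff]; omega)]
  rw [e1, e2, e3, e4] at h
  -- combine
  have e5 : (∑ z ∈ Ico 1 k, if Even z then lam ^ (sd a b H z) * p z else 0) =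
      lam ^ 2 * ∑ z ∈ Ico 1 k, if Even z then lam ^ (sd a b H z - 2) * p z else 0 := by
    rw [Finset.mul_sum]
    refine Finset.sum_congr rfl fun z _ => ?_
    by_cases he : Even z
    · rw [if_pos he, if_pos he, ← mul_assoc]
      congr 1
      rw [show (lam ^ 2 : ℂ) = lam ^ (2 : ℤ) from rfl, ← zpow_add₀ hl]
      congr 1
      ring
    · rw [if_neg he, if_neg he, mul_zero]
  rw [e5] at h
  have h1 : (lam ^ 2 - 1) * (1 + (∑ z ∈ Ico k N, if Odd z then d z else 0)) =
      (lam ^ 2 - 1) * ∑ z ∈ Ico 1 k, if Even z then lam ^ (sd a b H z - 2) * p z else 0 := by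
    linear_combination h
  exact mul_left_cancel₀ (sub_ne_zero.2 hl2) h1

/-! ### From the sides to the coordinates -/

theorem part (s : Finset ℕ) (t : Finset ℤ) (f : ℕ → ℝ) (g : ℤ → ℝ) (P : ℕ → Prop)
    [DecidablePred P] (i : ℕ → ℤ) (j : ℤ → ℕ) (hi : ∀ z ∈ s, P z → i z ∈ t)
    (hj : ∀ x ∈ t, j x ∈ s ∧ P (j x)) (h1 : ∀ z ∈ s, P z → j (i z) = z)
    (h2 : ∀ x ∈ t, i (j x) = x) (h3 : ∀ z ∈ s, P z → f z = g (i z)) :
    ∑ z ∈ s, (if P z then f z else 0) = ∑ x ∈ t, g x := by
  rw [← Finset.sum_filter]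
  refine Finset.sum_nbij' i j ?_ ?_ ?_ ?_ ?_
  · intro z hz
    rw [Finset.mem_filter] at hz
    exact hi z hz.1 hz.2
  · intro x hx
    rw [Finset.mem_filter]
    exact hj x hx
  · intro z hz
    rw [Finset.mem_filter] at hz
    exact h1 z hz.1 hz.2
  · exact h2
  · intro z hz
    rw [Finset.mem_filter] at hz
    exact h3 z hz.1 hz.2

theorem mem_fe {x y m : ℤ} : m ∈ (Finset.Ioo x y).filter (fun z => Even z) ↔
    x < m ∧ m < y ∧ m % 2 = 0 := by
  rw [Finset.mem_filter, Finset.mem_Ioo, Int.even_iff]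
  tauto

theorem mem_fo {x y m : ℤ} : m ∈ (Finset.Ioo x y).filter (fun z => Odd z) ↔
    x < m ∧ m < y ∧ m % 2 = 1 := by
  rw [Finset.mem_filter, Finset.mem_Ioo, Int.odd_iff]
  tauto

/-- The wired part. -/
theorem coord_d (ha : a % 2 = 1) (hb : b % 2 = 1) (hH : H % 2 = 0) (hn : n % 2 = 0) (hnb : n < b)
    (G : ℤ × ℤ → ℝ) :
    (∑ z ∈ Ico (rN a b H - n) (rN a b H), if Odd z then G (rp a b H z) else 0) =
      ∑ y ∈ (Finset.Ioo (-(n : ℤ)) 0).filter (fun y => Odd y), G (y, 0) := by
  have hN : rN a b H = 2 * (a + b) + 2 * H := rfl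
  refine part _ _ (fun z => G (rp a b H z)) (fun y => G (y, 0)) _
    (fun z => (z : ℤ) - rN a b H) (fun x => (x + rN a b H).toNat) ?_ ?_ ?_ ?_ ?_
  · intro z hz ho
    rw [Finset.mem_Ico] at hz
    rw [Nat.odd_iff] at ho
    rw [mem_fo]
    omega
  · intro x hx
    rw [mem_fo] at hx
    rw [Finset.mem_Ico, Nat.odd_iff]
    omega
  · intro z hz _
    try simp only
    omega
  · intro x hx
    rw [mem_fo] at hx
    try simp only
    omega
  · intro z hz ho
    rw [Finset.mem_Ico] at hz
    rw [Nat.odd_iff] at ho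
    have h6 := rp_spec a b H z
    try simp only
    congr 1
    ext <;> simp only <;> omega

/-- The free part. -/
theorem coord_p (ha : a % 2 = 1) (hb : b % 2 = 1) (hH : H % 2 = 0) (hn : n % 2 = 0) (hnb : n < b)
    (hH0 : 0 < H) (c : ℤ → ℝ) (F : ℤ × ℤ → ℝ) (h04 : c 4 = c 0) (h13 : c 3 = c 1) :
    (∑ z ∈ Ico 1 (rN a b H - n), if Even z then c (sd a b H z) * F (rp a b H z) else 0) =
      c 2 * ∑ x ∈ (Finset.Ioo (-(b : ℤ)) a).filter (fun x => Even x), F (x, H) +
      c 1 * ∑ y ∈ (Finset.Ioo (0 : ℤ) H).filter (fun y => Odd y), (F (-(b : ℤ), y) + F (a, y)) +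
      c 0 * ∑ x ∈ ((Finset.Ioo (-(b : ℤ)) (-(n : ℤ))) ∪ (Finset.Ioo (0 : ℤ) a)).filter
        (fun x => Even x), F (x, 0) := by
  have hN : rN a b H = 2 * (a + b) + 2 * H := rfl
  set f : ℕ → ℝ := fun z => if Even z then c (sd a b H z) * F (rp a b H z) else 0 with hf
  have hsplit : ∑ z ∈ Ico 1 (rN a b H - n), f z =
      ∑ z ∈ Ico 1 a, f z + ∑ z ∈ Ico a (a + H), f z + ∑ z ∈ Ico (a + H) (2 * a + b + H), f z +
        ∑ z ∈ Ico (2 * a + b + H) (2 * a + b + 2 * H), f z +
        ∑ z ∈ Ico (2 * a + b + 2 * H) (rN a b H - n), f z := by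
    rw [Finset.sum_Ico_consecutive f (by omega) (by omega),
      Finset.sum_Ico_consecutive f (by omega) (by omega),
      Finset.sum_Ico_consecutive f (by omega) (by omega),
      Finset.sum_Ico_consecutive f (by omega) (by omega)]
  have q0 : ∑ z ∈ Ico 1 a, f z =
      ∑ x ∈ (Finset.Ioo (0 : ℤ) a).filter (fun x => Even x), c 0 * F (x, 0) := by
    refine part _ _ (fun z => c (sd a b H z) * F (rp a b H z)) (fun x => c 0 * F (x, 0)) _
      (fun z => (z : ℤ)) (fun x => x.toNat) ?_ ?_ ?_ ?_ ?_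
    · intro z hz ho
      rw [Finset.mem_Ico] at hz
      rw [Nat.even_iff] at ho
      rw [mem_fe]
      omega
    · intro x hx
      rw [mem_fe] at hx
      rw [Finset.mem_Ico, Nat.even_iff]
      omega
    · intro z hz _
      try simp only
      omega
    · intro x hx
      rw [mem_fe] at hx
      try simp only
      omega
    · intro z hz ho
      rw [Finset.mem_Ico] at hz
      rw [Nat.even_iff] at ho
      have h6 := rp_spec a b H z
      have h7 := sd_spec a b H z
      try simp only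
      rw [show sd a b H z = 0 by omega]
      congr 2
      ext <;> simp only <;> omega
  have q1 : ∑ z ∈ Ico a (a + H), f z =
      ∑ x ∈ (Finset.Ioo (0 : ℤ) H).filter (fun x => Odd x), c 1 * F (a, x) := by
    refine part _ _ (fun z => c (sd a b H z) * F (rp a b H z)) (fun x => c 1 * F (a, x)) _
      (fun z => (z : ℤ) - a) (fun x => (x + a).toNat) ?_ ?_ ?_ ?_ ?_
    · intro z hz ho
      rw [Finset.mem_Ico] at hz
      rw [Nat.even_iff] at ho
      rw [mem_fo]
      omega
    · intro x hx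
      rw [mem_fo] at hx
      rw [Finset.mem_Ico, Nat.even_iff]
      omega
    · intro z hz _
      try simp only
      omega
    · intro x hx
      rw [mem_fo] at hx
      try simp only
      omega
    · intro z hz ho
      rw [Finset.mem_Ico] at hz
      rw [Nat.even_iff] at ho
      have h6 := rp_spec a b H z
      have h7 := sd_spec a b H z
      try simp only
      rw [show sd a b H z = 1 by omega]
      congr 2
      ext <;> simp only <;> omega
  have q2 : ∑ z ∈ Ico (a + H) (2 * a + b + H), f z =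
      ∑ x ∈ (Finset.Ioo (-(b : ℤ)) a).filter (fun x => Even x), c 2 * F (x, H) := by
    refine part _ _ (fun z => c (sd a b H z) * F (rp a b H z)) (fun x => c 2 * F (x, H)) _
      (fun z => 2 * a + H - (z : ℤ)) (fun x => (2 * a + H - x).toNat) ?_ ?_ ?_ ?_ ?_
    · intro z hz ho
      rw [Finset.mem_Ico] at hz
      rw [Nat.even_iff] at ho
      rw [mem_fe]
      omega
    · intro x hx
      rw [mem_fe] at hx
      rw [Finset.mem_Ico, Nat.even_iff]
      omega
    · intro z hz _
      rw [Finset.mem_Ico] at hz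
      try simp only
      omega
    · intro x hx
      rw [mem_fe] at hx
      try simp only
      omega
    · intro z hz ho
      rw [Finset.mem_Ico] at hz
      rw [Nat.even_iff] at ho
      have h6 := rp_spec a b H z
      have h7 := sd_spec a b H z
      try simp only
      rw [show sd a b H z = 2 by omega]
      congr 2
      ext <;> simp only <;> omega
  have q3 : ∑ z ∈ Ico (2 * a + b + H) (2 * a + b + 2 * H), f z =
      ∑ x ∈ (Finset.Ioo (0 : ℤ) H).filter (fun x => Odd x), c 3 * F (-(b : ℤ), x) := by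
    refine part _ _ (fun z => c (sd a b H z) * F (rp a b H z)) (fun x => c 3 * F (-(b : ℤ), x)) _
      (fun z => 2 * a + b + 2 * H - (z : ℤ)) (fun x => (2 * a + b + 2 * H - x).toNat) ?_ ?_ ?_ ?_ ?_
    · intro z hz ho
      rw [Finset.mem_Ico] at hz
      rw [Nat.even_iff] at ho
      rw [mem_fo]
      omega
    · intro x hx
      rw [mem_fo] at hx
      rw [Finset.mem_Ico, Nat.even_iff]
      omega
    · intro z hz _
      rw [Finset.mem_Ico] at hz
      try simp only
      omega
    · intro x hx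
      rw [mem_fo] at hx
      try simp only
      omega
    · intro z hz ho
      rw [Finset.mem_Ico] at hz
      rw [Nat.even_iff] at ho
      have h6 := rp_spec a b H z
      have h7 := sd_spec a b H z
      try simp only
      rw [show sd a b H z = 3 by omega]
      congr 2
      ext <;> simp only <;> omega
  have q4 : ∑ z ∈ Ico (2 * a + b + 2 * H) (rN a b H - n), f z =
      ∑ x ∈ (Finset.Ioo (-(b : ℤ)) (-(n : ℤ))).filter (fun x => Even x), c 4 * F (x, 0) := by
    refine part _ _ (fun z => c (sd a b H z) * F (rp a b H z)) (fun x => c 4 * F (x, 0)) _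
      (fun z => (z : ℤ) - rN a b H) (fun x => (x + rN a b H).toNat) ?_ ?_ ?_ ?_ ?_
    · intro z hz ho
      rw [Finset.mem_Ico] at hz
      rw [Nat.even_iff] at ho
      rw [mem_fe]
      omega
    · intro x hx
      rw [mem_fe] at hx
      rw [Finset.mem_Ico, Nat.even_iff]
      omega
    · intro z hz _
      try simp only
      omega
    · intro x hx
      rw [mem_fe] at hx
      try simp only
      omega
    · intro z hz ho
      rw [Finset.mem_Ico] at hz
      rw [Nat.even_iff] at ho
      have h6 := rp_spec a b H z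
      have h7 := sd_spec a b H z
      try simp only
      rw [show sd a b H z = 4 by omega]
      congr 2
      ext <;> simp only <;> omega
  rw [hsplit, q0, q1, q2, q3, q4, h04, h13, Finset.filter_union, Finset.sum_union, mul_add,
    Finset.sum_add_distrib, Finset.mul_sum, Finset.mul_sum, mul_add, Finset.mul_sum,
    Finset.mul_sum, Finset.mul_sum]
  · ring
  · rw [Finset.disjoint_left]
    intro x hx hx'
    rw [mem_fe] at hx hx'
    omega

/-! ### The theorem -/

theorem Pr_univ {Q : ℝ} (hQ : 0 < Q) (D : Finset (ℤ × ℤ)) (η : Cfg) {A : Set Cfg}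
    (hA : ∀ S ∈ D.powerset, cf D η S ∈ A) : Pr Q D η A = 1 := by
  unfold Pr Ex
  have h1 : ∑ S ∈ D.powerset, Q ^ LD D (cf D η S) * A.indicator 1 (cf D η S) = Zq Q D η := by
    unfold Zq
    refine Finset.sum_congr rfl fun S hS => ?_
    rw [Set.indicator_of_mem (hA S hS), Pi.one_apply, mul_one]
  rw [h1]
  refine div_self ?_
  unfold Zq
  exact (Finset.sum_pos (fun S _ => by positivity)
    ⟨∅, Finset.mem_powerset.2 (Finset.empty_subset _)⟩).ne'

theorem pfi_nat {μ : ℝ} (hμ : 0 < μ) (hμ2 : μ < Real.pi / 2) (ha : Odd a) (hb : Odd b)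
    (hH : Even H) (hn : Even n) (hnb : n < b) (hH0 : 0 < H) :
    1 + ∑ y ∈ (Finset.Ioo (-(n : ℤ)) 0).filter (fun y => Odd y), Pd μ (-b) a H n (y, 0) =
      ∑ x ∈ (Finset.Ioo (-(b : ℤ)) a).filter (fun x => Even x), Pp μ (-b) a H n (x, H) +
      Real.cos μ * ∑ y ∈ (Finset.Ioo (0 : ℤ) H).filter (fun y => Odd y),
        (Pp μ (-b) a H n (-(b : ℤ), y) + Pp μ (-b) a H n (a, y)) +
      Real.cos (2 * μ) * ∑ x ∈ ((Finset.Ioo (-(b : ℤ)) (-(n : ℤ))) ∪
        (Finset.Ioo (0 : ℤ) a)).filter (fun x => Even x), Pp μ (-b) a H n (x, 0) := by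
  have hcos : 0 < Real.cos μ := Real.cos_pos_of_mem_Ioo ⟨by linarith, hμ2⟩
  set Q : ℝ := 2 * Real.cos μ with hQdef
  have hQ : 0 < Q := by positivity
  set lam : ℂ := Complex.exp ((μ : ℂ) * Complex.I) with hlam
  have hl : lam ≠ 0 := Complex.exp_ne_zero _
  have hlinv : lam⁻¹ = Complex.exp (-((μ : ℂ) * Complex.I)) := (Complex.exp_neg _).symm
  have hlQ : lam + lam⁻¹ = (Q : ℂ) := by
    rw [hlinv, hlam, hQdef]
    push_cast
    rw [Complex.two_cos]
    congr 2
    ring
  have hre : ∀ t : ℤ, (lam ^ t).re = Real.cos (t * μ) := by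
    intro t
    rw [hlam, ← Complex.exp_int_mul, show (t : ℂ) * ((μ : ℂ) * Complex.I) =
      ((t * μ : ℝ) : ℂ) * Complex.I by push_cast; ring, Complex.exp_ofReal_mul_I_re]
  have hl2 : lam ^ 2 ≠ 1 := by
    intro h1
    have h2 : (lam ^ 2).re = 1 := by rw [h1]; rfl
    have h3 := hre 2
    rw [show (lam ^ (2 : ℤ) : ℂ) = lam ^ 2 from rfl, h2] at h3
    have h4 : Real.cos ((2 : ℤ) * μ) < 1 := by
      rw [← Real.cos_zero]
      refine Real.cos_lt_cos_of_nonneg_of_le_pi le_rfl ?_ ?_
      · push_cast; linarith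
      · push_cast; linarith
    linarith
  have h0 := complex_id ha hb hH hH0 hn hnb hQ hl hlQ
    (fun m => Pr Q (Rt (-b) a H) (ea n) {ω | PC ω (rp a b H m) (0, 0)})
    (fun m => Pr Q (Rt (-b) a H) (ea n) {ω | DC ω (rp a b H m) (1, 0)})
    (fun m => rfl) (fun m => rfl)
  have hcx := fun S => cx_cf ha hb hH hH0 hn hnb S
  have har := (hcx ∅).arith
  obtain ⟨a1, a2, a3, a4, a5, a6, a7, a8, a9⟩ := har
  have h1 := reduce a1 a2 a3 a4 a9 hl hl2
    (fun m => ((Pr Q (Rt (-b) a H) (ea n) {ω | PC ω (rp a b H m) (0, 0)} : ℝ) : ℂ))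
    (fun m => ((Pr Q (Rt (-b) a H) (ea n) {ω | DC ω (rp a b H m) (1, 0)} : ℝ) : ℂ)) (by
      have : Pr Q (Rt (-b) a H) (ea n) {ω | PC ω (rp a b H 0) (0, 0)} = 1 := by
        refine Pr_univ hQ _ _ fun S _ => ?_
        rw [(hcx ∅).rp0]
        exact ReflTransGen.refl
      simp only [this]
      norm_num) (by
      have : Pr Q (Rt (-b) a H) (ea n) {ω | PC ω (rp a b H (rN a b H - n)) (0, 0)} = 1 := by
        refine Pr_univ hQ _ _ fun S _ => ?_
        exact (hcx S).pc_wired (by rw [Nat.even_iff]; omega) le_rfl (by omega)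
      simp only [this]
      norm_num) h0
  have h2 := congrArg Complex.re h1
  rw [Complex.add_re, Complex.one_re, Complex.re_sum, Complex.re_sum] at h2
  have h3 : ∑ z ∈ Ico (rN a b H - n) (rN a b H), ((if Odd z then
      ((Pr Q (Rt (-b) a H) (ea n) {ω | DC ω (rp a b H z) (1, 0)} : ℝ) : ℂ) else 0)).re =
      ∑ z ∈ Ico (rN a b H - n) (rN a b H), if Odd z then
        Pd μ (-b) a H n (rp a b H z) else 0 := by
    refine Finset.sum_congr rfl fun z _ => ?_
    by_cases ho : Odd z
    · rw [if_pos ho, if_pos ho, Complex.ofReal_re]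
      rfl
    · rw [if_neg ho, if_neg ho, Complex.zero_re]
  have h4 : ∑ z ∈ Ico 1 (rN a b H - n), ((if Even z then lam ^ (sd a b H z - 2) *
      ((Pr Q (Rt (-b) a H) (ea n) {ω | PC ω (rp a b H z) (0, 0)} : ℝ) : ℂ) else 0)).re =
      ∑ z ∈ Ico 1 (rN a b H - n), if Even z then
        (fun t : ℤ => Real.cos (((t - 2 : ℤ) : ℝ) * μ)) (sd a b H z) *
          Pp μ (-b) a H n (rp a b H z) else 0 := by
    refine Finset.sum_congr rfl fun z _ => ?_
    by_cases ho : Even z
    · rw [if_pos ho, if_pos ho, Complex.re_mul_ofReal, hre]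
      rfl
    · rw [if_neg ho, if_neg ho, Complex.zero_re]
  rw [h3, h4, coord_d a1 a2 a3 a4 a9 (Pd μ (-b) a H n),
    coord_p a1 a2 a3 a4 a9 a8 (fun t : ℤ => Real.cos (((t - 2 : ℤ) : ℝ) * μ))
      (Pp μ (-b) a H n) ?_ ?_] at h2
  · rw [h2]
    norm_num
  · norm_num
  · norm_num

/-- **The parafermionic identity** on a rectangle. -/
theorem pfi : PFI := by
  intro μ x0 x1 H n h1 h2 ho0 ho1 hH hn hn0 hx0 hx1 hH0
  obtain ⟨a, rfl⟩ := Int.eq_ofNat_of_zero_le hx1.le
  obtain ⟨b, hb⟩ := Int.eq_ofNat_of_zero_le (a := -x0) (by omega)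
  obtain ⟨H, rfl⟩ := Int.eq_ofNat_of_zero_le hH0.le
  obtain ⟨n, rfl⟩ := Int.eq_ofNat_of_zero_le hn0
  obtain rfl : x0 = -(b : ℤ) := by omega
  have e1 : Odd a := by rw [Int.odd_iff] at ho1; rw [Nat.odd_iff]; omega
  have e2 : Odd b := by rw [Int.odd_iff] at ho0; rw [Nat.odd_iff]; omega
  have e3 : Even H := by rw [Int.even_iff] at hH; rw [Nat.even_iff]; omega
  have e4 : Even n := by rw [Int.even_iff] at hn; rw [Nat.even_iff]; omega
  exact pfi_nat h1 h2 e1 e2 e3 e4 (by omega) (by omega)

end Vale.Agent.P167.H947.Q
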