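import Vale.Agent.P167.FK.Defs

/-!
# P167, general `q`, block Q-SRSW: the parafermionic identity, statement

`Rt x0 x1 H`: the rectangle of the squares with `x0 ≤ v.1 < x1`, `0 ≤ v.2 < H`. `ea n`: the outside,
open exactly at the squares `(x, -1)`, `-n ≤ x < 0` (wired arc: the even sites of the bottom side
between `-n` and `0`), closed elsewhere.
-/

namespace Vale.Agent.P167.H947.Q

open Finset Vale.Agent.P167.FK

/-- The rectangle of the squares with `x0 ≤ v.1 < x1` and `0 ≤ v.2 < H`. -/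
noncomputable def Rt (x0 x1 H : ℤ) : Finset (ℤ × ℤ) := Finset.Ico x0 x1 ×ˢ Finset.Ico 0 H

/-- The outside: open exactly below the arc from `-n` to `0`. -/
def ea (n : ℤ) : Cfg := fun v => decide (v.2 = -1 ∧ -n ≤ v.1 ∧ v.1 < 0)

/-- Probability that the primal site `s` is connected to the wired arc. -/
noncomputable def Pp (μ : ℝ) (x0 x1 H n : ℤ) (s : ℤ × ℤ) : ℝ :=
  Pr (2 * Real.cos μ) (Rt x0 x1 H) (ea n) {ω | PC ω s (0, 0)}

/-- Probability that the dual site `s` is connected to the free part of the boundary. -/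
noncomputable def Pd (μ : ℝ) (x0 x1 H n : ℤ) (s : ℤ × ℤ) : ℝ :=
  Pr (2 * Real.cos μ) (Rt x0 x1 H) (ea n) {ω | DC ω s (1, 0)}

/-- **The parafermionic identity** on a rectangle. -/
def PFI : Prop := ∀ (μ : ℝ) (x0 x1 H n : ℤ), 0 < μ → μ < Real.pi / 2 → Odd x0 → Odd x1 → Even H →
  Even n → 0 ≤ n → x0 < -n → 0 < x1 → 0 < H →
  1 + ∑ y ∈ (Finset.Ioo (-n) 0).filter (fun y => Odd y), Pd μ x0 x1 H n (y, 0) =
    ∑ x ∈ (Finset.Ioo x0 x1).filter (fun x => Even x), Pp μ x0 x1 H n (x, H) +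
    Real.cos μ * ∑ y ∈ (Finset.Ioo 0 H).filter (fun y => Odd y),
      (Pp μ x0 x1 H n (x0, y) + Pp μ x0 x1 H n (x1, y)) +
    Real.cos (2 * μ) * ∑ x ∈ ((Finset.Ioo x0 (-n)) ∪ (Finset.Ioo 0 x1)).filter (fun x => Even x),
      Pp μ x0 x1 H n (x, 0)

end Vale.Agent.P167.H947.Q
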