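import Vale.Agent.P167.FK.Flip
import Vale.Agent.P167.H947.Q.Defs

/-!
# P167, general `q`, block Q-SRSW: conservation of the parafermionic current at a square

`tu ω e j`: number of left turns minus number of right turns of the first `j` steps of the interface
from `e`. `Ph lam ω e e' = lam ^ (number of turns from e to e')` if `e'` is on the interface of `e`.
-/

namespace Vale.Agent.P167.H947.Q

open Finset Vale.Agent.P167.FK Vale.Agent.P167.Top Relation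
open Vale.Agent.P145.FB (PStep PConn)

variable {ω ω' : Cfg} {a : ℤ × ℤ} {e x y : Ed}

/-- The turning of the first `j` steps. -/
def tu (ω : Cfg) (e : Ed) (j : ℕ) : ℤ := ∑ k ∈ range j, trn ω ((nx ω)^[k] e)

/-- The first time at which the interface of `e` is at `e'`. -/
noncomputable def hit (ω : Cfg) (e e' : Ed) : ℕ := sInf {j | (nx ω)^[j] e = e'}

open Classical in
/-- The phase of `e'` for the interface of `e`. -/
noncomputable def Ph (lam : ℂ) (ω : Cfg) (e e' : Ed) : ℂ :=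
  if ∃ j, (nx ω)^[j] e = e' then lam ^ tu ω e (hit ω e e') else 0

theorem hit_spec {e' : Ed} (h : ∃ j, (nx ω)^[j] e = e') : (nx ω)^[hit ω e e'] e = e' :=
  Nat.sInf_mem (s := {j | (nx ω)^[j] e = e'}) h

theorem hit_le {e' : Ed} {j : ℕ} (h : (nx ω)^[j] e = e') : hit ω e e' ≤ j :=
  Nat.sInf_le (show j ∈ {j | (nx ω)^[j] e = e'} from h)

theorem hit_eq {e' : Ed} {j : ℕ} (h : (nx ω)^[j] e = e') (h1 : ∀ k < j, (nx ω)^[k] e ≠ e') :
    hit ω e e' = j := by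
  refine le_antisymm (hit_le h) ?_
  by_contra hlt
  push Not at hlt
  exact h1 _ hlt (hit_spec ⟨j, h⟩)

theorem hit_self (ω : Cfg) (e : Ed) : hit ω e e = 0 :=
  hit_eq (j := 0) rfl (fun k hk => absurd hk (by omega))

theorem not_hit {e' : Ed} {k : ℕ} (h : k < hit ω e e') : (nx ω)^[k] e ≠ e' := fun h' =>
  absurd (hit_le h') (by omega)

theorem tu_succ (ω : Cfg) (e : Ed) (j : ℕ) : tu ω e (j + 1) = tu ω e j + trn ω ((nx ω)^[j] e) :=
  Finset.sum_range_succ _ _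

theorem Ph_of {lam : ℂ} {e' : Ed} {j : ℕ} (h : (nx ω)^[j] e = e')
    (h1 : ∀ k < j, (nx ω)^[k] e ≠ e') : Ph lam ω e e' = lam ^ tu ω e j := by
  unfold Ph
  rw [if_pos ⟨j, h⟩, hit_eq h h1]

theorem Ph_zero {lam : ℂ} {e' : Ed} (h : ¬ ∃ j, (nx ω)^[j] e = e') : Ph lam ω e e' = 0 := by
  unfold Ph
  rw [if_neg h]

theorem Ph_self (lam : ℂ) (ω : Cfg) (e : Ed) : Ph lam ω e e = 1 := by
  unfold Ph
  rw [if_pos ⟨0, rfl⟩, hit_self]
  simp [tu]

theorem nx_inj (ω : Cfg) : Function.Injective (nx ω) := (s_nx ω).1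

theorem vis_nx {e' : Ed} (hne : nx ω e' ≠ e) :
    (∃ j, (nx ω)^[j] e = nx ω e') ↔ ∃ j, (nx ω)^[j] e = e' := by
  constructor
  · rintro ⟨j, hj⟩
    rcases Nat.eq_zero_or_pos j with rfl | h0
    · exact absurd hj.symm hne
    · obtain ⟨k, rfl⟩ : ∃ k, j = k + 1 := ⟨j - 1, by omega⟩
      rw [Function.iterate_succ_apply'] at hj
      exact ⟨k, nx_inj ω hj⟩
  · rintro ⟨j, hj⟩
    exact ⟨j + 1, by rw [Function.iterate_succ_apply', hj]⟩

/-- The phase of the next edge. -/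
theorem Ph_nx {lam : ℂ} (hl : lam ≠ 0) {e' : Ed} (hne : nx ω e' ≠ e) :
    Ph lam ω e (nx ω e') = Ph lam ω e e' * lam ^ trn ω e' := by
  by_cases h : ∃ j, (nx ω)^[j] e = e'
  · have h1 := hit_spec h
    have h2 : (nx ω)^[hit ω e e' + 1] e = nx ω e' := by rw [Function.iterate_succ_apply', h1]
    rw [Ph_of h2 ?_, Ph_of h1 (fun k hk => not_hit hk), tu_succ, h1, zpow_add₀ hl]
    intro k hk hk'
    rcases Nat.eq_zero_or_pos k with rfl | h0
    · exact hne hk'.symm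
    · obtain ⟨l, rfl⟩ : ∃ l, k = l + 1 := ⟨k - 1, by omega⟩
      rw [Function.iterate_succ_apply'] at hk'
      exact not_hit (by omega) (nx_inj ω hk')
  · rw [Ph_zero h, Ph_zero (fun h' => h ((vis_nx hne).1 h')), zero_mul]

/-! ### Loops and orbits -/

theorem mem_loop_iff {ℓ : Finset Ed} (h : IsLoop ω ℓ) (he : e ∈ ℓ) {e' : Ed} :
    e' ∈ ℓ ↔ ∃ j, (nx ω)^[j] e = e' := by
  constructor
  · intro h'
    exact h.induct (p := fun z => ∃ j, (nx ω)^[j] e = z)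
      (fun z _ ⟨j, hj⟩ => ⟨j + 1, by rw [Function.iterate_succ_apply', hj]⟩) he h' ⟨0, rfl⟩
  · rintro ⟨j, rfl⟩
    exact iter_mem h he j

/-- The sum over a loop in terms of the iterates. -/
theorem sum_loop {ℓ : Finset Ed} (h : IsLoop ω ℓ) (he : e ∈ ℓ) (f : Ed → ℤ) :
    ∃ m : ℕ, 0 < m ∧ (nx ω)^[m] e = e ∧ (∀ k, 0 < k → k < m → (nx ω)^[k] e ≠ e) ∧
      ∑ z ∈ ℓ, f z = ∑ k ∈ range m, f ((nx ω)^[k] e) := by
  classical
  obtain ⟨m, h1, h2, h3, h4⟩ := exists_period h he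
  refine ⟨m, h1, h2, h3, ?_⟩
  rw [h4, Finset.sum_image]
  intro i hi j hj hij
  simp only [Finset.coe_range, Set.mem_Iio] at hi hj
  have key : ∀ i j, i < j → j < m → (nx ω)^[i] e = (nx ω)^[j] e → False := by
    intro i j hij hj hE
    have h5 : (nx ω)^[i] ((nx ω)^[j - i] e) = (nx ω)^[i] e := by
      rw [← Function.iterate_add_apply, show i + (j - i) = j by omega, hE]
    exact h3 (j - i) (by omega) (by omega) (((nx_inj ω).iterate i) h5)
  rcases lt_trichotomy i j with h' | h' | h'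
  · exact (key i j h' hj hij).elim
  · exact h'
  · exact (key j i h' hi hij.symm).elim

theorem W_rs_closed {ℓ : Finset Ed} (h : IsLoop ω ℓ) (ha : ω a = false) :
    W ℓ (rs (ia a)) = W ℓ (rs (ib a)) := by
  have h5 : W ℓ (da a) = W ℓ (db a) := by
    refine s_step ω ℓ h _ _ (Or.inr ⟨?_, dstep_ab ha⟩)
    by_cases hev : Even (a.1 + a.2)
    · have := odd_rs (ib a)
      rwa [rs_ib, if_pos hev] at this
    · have := odd_rs (ia a)
      rwa [rs_ia, if_neg hev] at this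
  rw [rs_ia, rs_ib]
  split_ifs
  · exact h5.symm
  · exact h5

theorem W_ls_open {ℓ : Finset Ed} (h : IsLoop ω ℓ) (ha : ω a = true) :
    W ℓ (ls (ia a)) = W ℓ (ls (ib a)) := by
  refine s_step ω ℓ h _ _ (Or.inl ⟨even_ls _, ?_⟩)
  rw [ls_ia, ls_ib]
  exact step_ab ha

/-! ### The two incoming edges of a square, in any order -/

/-- `x`, `y` are the two incoming edges at `a`; `ω'` is `ω` with the closed square `a` opened. -/
structure Fp (ω ω' : Cfg) (a : ℤ × ℤ) (x y : Ed) : Prop where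
  cl : ω a = false
  upd : ω' = Function.update ω a true
  hx : hdv x = a
  hy : hdv y = a
  ne : x ≠ y
  only : ∀ e, hdv e = a → e = x ∨ e = y

theorem fp1 (h : ω a = false) : Fp ω (Function.update ω a true) a (ia a) (ib a) :=
  ⟨h, rfl, hdv_ia a, hdv_ib a, ia_ne_ib a, fun _ he => eq_of_hdv he⟩

theorem fp2 (h : ω a = false) : Fp ω (Function.update ω a true) a (ib a) (ia a) :=
  ⟨h, rfl, hdv_ib a, hdv_ia a, (ia_ne_ib a).symm, fun _ he => (eq_of_hdv he).symm⟩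

theorem Fp.swap (h : Fp ω ω' a x y) : Fp ω ω' a y x :=
  ⟨h.cl, h.upd, h.hy, h.hx, h.ne.symm, fun e he => (h.only e he).symm⟩

theorem Fp.xy (h : Fp ω ω' a x y) : (x = ia a ∧ y = ib a) ∨ (x = ib a ∧ y = ia a) := by
  rcases eq_of_hdv h.hx with h1 | h1 <;> rcases eq_of_hdv h.hy with h2 | h2
  · exact absurd (h1.trans h2.symm) h.ne
  · exact Or.inl ⟨h1, h2⟩
  · exact Or.inr ⟨h1, h2⟩
  · exact absurd (h1.trans h2.symm) h.ne

theorem Fp.op' (h : Fp ω ω' a x y) : ω' a = true := by rw [h.upd, Function.update_self]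

theorem Fp.nx_of_ne (h : Fp ω ω' a x y) {z : Ed} (hx : z ≠ x) (hy : z ≠ y) :
    nx ω' z = nx ω z := by
  rw [h.upd]
  refine nx_update_of_ne ω (fun hz => ?_) true
  rcases h.only z hz with h1 | h1
  · exact hx h1
  · exact hy h1

theorem Fp.trn_of_ne (h : Fp ω ω' a x y) {z : Ed} (hx : z ≠ x) (hy : z ≠ y) :
    trn ω' z = trn ω z := by
  have h1 : hdv z ≠ a := fun hz => by
    rcases h.only z hz with h1 | h1
    · exact hx h1
    · exact hy h1
  unfold trn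
  rw [h.upd, Function.update_of_ne h1]

theorem Fp.nx_x (h : Fp ω ω' a x y) : nx ω' x = nx ω y := by
  rw [h.upd]
  rcases h.xy with ⟨rfl, rfl⟩ | ⟨rfl, rfl⟩
  · exact nx_update_ia ω h.cl
  · exact nx_update_ib ω h.cl

theorem Fp.nx_y (h : Fp ω ω' a x y) : nx ω' y = nx ω x := h.swap.nx_x

theorem Fp.tx (h : Fp ω ω' a x y) : trn ω x = 1 ∧ trn ω' x = -1 := by
  unfold trn
  rw [h.hx, h.cl, h.op']
  exact ⟨rfl, rfl⟩

theorem Fp.ty (h : Fp ω ω' a x y) : trn ω y = 1 ∧ trn ω' y = -1 := h.swap.tx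

/-- Before the square `a` the two interfaces are the same. -/
theorem Fp.iter (h : Fp ω ω' a x y) {m : ℕ} (hm : ∀ k < m, (nx ω)^[k] e ≠ x ∧ (nx ω)^[k] e ≠ y) :
    ∀ k ≤ m, (nx ω')^[k] e = (nx ω)^[k] e := by
  intro k
  induction k with
  | zero => intro _; rfl
  | succ k ih =>
    intro hk
    rw [Function.iterate_succ_apply', Function.iterate_succ_apply', ih (by omega)]
    exact h.nx_of_ne (hm k (by omega)).1 (hm k (by omega)).2

theorem Fp.tu_eq (h : Fp ω ω' a x y) {m : ℕ} (hm : ∀ k < m, (nx ω)^[k] e ≠ x ∧ (nx ω)^[k] e ≠ y) :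
    tu ω' e m = tu ω e m := by
  unfold tu
  refine Finset.sum_congr rfl fun k hk => ?_
  rw [Finset.mem_range] at hk
  rw [h.iter hm k hk.le]
  exact h.trn_of_ne (hm k hk).1 (hm k hk).2

/-- **Merging**: `x` is on the interface of `e`, `y` is not. -/
theorem Fp.merge (h : Fp ω ω' a x y) (hG : Good ω)
    (hfar : ∀ ℓ, IsLoop ω ℓ → W ℓ (rs e) = 0) (hvx : ∃ j, (nx ω)^[j] e = x)
    (hvy : ¬ ∃ j, (nx ω)^[j] e = y) (lam : ℂ) :
    ∃ t : ℤ, Ph lam ω e x = lam ^ t ∧ Ph lam ω e y = 0 ∧ Ph lam ω' e x = lam ^ t ∧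
      Ph lam ω' e y = lam ^ (t + 2) := by
  obtain ⟨ℓ, hℓ, hyℓ⟩ := hG y
  obtain ⟨ℓ0, hℓ0, heℓ0⟩ := hG e
  set m0 := hit ω e x with hm0
  have hx0 : (nx ω)^[m0] e = x := hit_spec hvx
  have hny : ∀ k, (nx ω)^[k] e ≠ y := fun k hk => hvy ⟨k, hk⟩
  have hpre : ∀ k < m0, (nx ω)^[k] e ≠ x ∧ (nx ω)^[k] e ≠ y := fun k hk => ⟨not_hit hk, hny k⟩
  have hit0 := h.iter hpre
  have hxℓ0 : x ∈ ℓ0 := (mem_loop_iff hℓ0 heℓ0).2 hvx
  have hyℓ0 : y ∉ ℓ0 := fun h' => hvy ((mem_loop_iff hℓ0 heℓ0).1 h')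
  have hne : ℓ ≠ ℓ0 := fun h' => hyℓ0 (h' ▸ hyℓ)
  have hxℓ : x ∉ ℓ := fun h' => hne (hℓ.eq_of_mem hℓ0 h' hxℓ0)
  obtain ⟨m, hm, hmy, hmin, hsum⟩ := sum_loop hℓ hyℓ (trn ω)
  -- the turning of the loop of `y`
  have hT : ∑ z ∈ ℓ, trn ω z = 4 := by
    have h1 := (s_two ω ℓ ℓ0 hℓ hℓ0 hne).2 x hxℓ0 e heℓ0
    have h2 : W ℓ (rs x) = 0 := by rw [h1.2.1]; exact hfar ℓ hℓ
    have h3 : W ℓ (rs y) = 0 := by
      rcases h.xy with ⟨rfl, rfl⟩ | ⟨rfl, rfl⟩
      · rw [← W_rs_closed hℓ h.cl]; exact h2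
      · rw [W_rs_closed hℓ h.cl]; exact h2
    have h4 := s_jump ω ℓ hℓ y
    rw [if_pos hyℓ, h3] at h4
    rcases turn_loop hℓ with h5 | ⟨-, h5⟩
    · exact h5.1
    · have := h5 (ls y)
      omega
  -- the iterates after `x`
  have hit1 : ∀ k, 1 ≤ k → k ≤ m → (nx ω')^[m0 + k] e = (nx ω)^[k] y := by
    intro k hk1
    induction k, hk1 using Nat.le_induction with
    | base =>
      intro _
      rw [Function.iterate_succ_apply', hit0 m0 le_rfl, hx0, h.nx_x]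
      rfl
    | succ k hk ih =>
      intro hk2
      rw [show m0 + (k + 1) = (m0 + k) + 1 by ring, Function.iterate_succ_apply',
        Function.iterate_succ_apply', ih (by omega)]
      refine h.nx_of_ne (fun h' => hxℓ ?_) (hmin k (by omega) (by omega))
      rw [← h']
      exact iter_mem hℓ hyℓ k
  refine ⟨tu ω e m0, Ph_of hx0 fun k hk => (hpre k hk).1, Ph_zero hvy, ?_, ?_⟩
  · rw [Ph_of (j := m0) (by rw [hit0 m0 le_rfl, hx0])
      (fun k hk => by rw [hit0 k hk.le]; exact (hpre k hk).1), h.tu_eq hpre]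
  · rw [Ph_of (j := m0 + m) (by rw [hit1 m hm le_rfl, hmy]) ?_]
    · congr 1
      unfold tu
      rw [Finset.sum_range_add]
      have e1 : ∑ k ∈ range m0, trn ω' ((nx ω')^[k] e) = tu ω e m0 := h.tu_eq hpre
      rw [e1]
      obtain ⟨m', rfl⟩ : ∃ m', m = m' + 1 := ⟨m - 1, by omega⟩
      rw [Finset.sum_range_succ']
      have e2 : ∑ k ∈ range m', trn ω' ((nx ω')^[m0 + (k + 1)] e) =
          ∑ k ∈ range m', trn ω ((nx ω)^[k + 1] y) := by
        refine Finset.sum_congr rfl fun k hk => ?_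
        rw [Finset.mem_range] at hk
        rw [hit1 (k + 1) (by omega) (by omega)]
        refine h.trn_of_ne (fun h' => hxℓ ?_) (hmin _ (by omega) (by omega))
        rw [← h']
        exact iter_mem hℓ hyℓ _
      rw [e2, Nat.add_zero, hit0 m0 le_rfl, hx0, h.tx.2]
      rw [hT, Finset.sum_range_succ', Function.iterate_zero, id, h.ty.1] at hsum
      unfold tu
      linarith
    · intro k hk
      rcases Nat.lt_or_ge m0 k with h1 | h1
      · obtain ⟨l, rfl⟩ : ∃ l, k = m0 + l := ⟨k - m0, by omega⟩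
        rw [hit1 l (by omega) (by omega)]
        exact hmin l (by omega) (by omega)
      · rw [hit0 k h1]
        exact hny k

/-- **Splitting**: both edges are on the interface of `e`, first `x`. -/
theorem Fp.split (h : Fp ω ω' a x y) (hG' : Good ω')
    (hfar : ∀ ℓ, IsLoop ω' ℓ → W ℓ (rs e) = 0) (hvx : ∃ j, (nx ω)^[j] e = x)
    (hvy : ∃ j, (nx ω)^[j] e = y) (hlt : hit ω e x < hit ω e y) (lam : ℂ) :
    ∃ t : ℤ, Ph lam ω e x = lam ^ t ∧ Ph lam ω e y = lam ^ (t - 2) ∧ Ph lam ω' e x = lam ^ t ∧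
      Ph lam ω' e y = 0 := by
  set m0 := hit ω e x with hm0
  set m1 := hit ω e y with hm1
  have hx0 : (nx ω)^[m0] e = x := hit_spec hvx
  have hy1 : (nx ω)^[m1] e = y := hit_spec hvy
  have hpre : ∀ k < m0, (nx ω)^[k] e ≠ x ∧ (nx ω)^[k] e ≠ y :=
    fun k hk => ⟨not_hit hk, not_hit (by omega)⟩
  have hit0 := h.iter hpre
  -- injectivity up to `m1`
  have hinj : ∀ i j, i < j → j ≤ m1 → (nx ω)^[i] e ≠ (nx ω)^[j] e := by
    intro i j hij hj hE
    have h1 : (nx ω)^[m1 - j + i] e = y := by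
      rw [Function.iterate_add_apply, hE, ← Function.iterate_add_apply,
        show m1 - j + j = m1 by omega, hy1]
    exact not_hit (ω := ω) (e := e) (e' := y) (k := m1 - j + i) (by omega) h1
  have hmid : ∀ k, m0 < k → k < m1 → (nx ω)^[k] e ≠ x ∧ (nx ω)^[k] e ≠ y := by
    intro k h1 h2
    refine ⟨fun h' => hinj m0 k h1 h2.le (by rw [hx0, h']), fun h' => hinj k m1 h2 le_rfl (by
      rw [hy1, h'])⟩
  -- the orbit of `y` in the new configuration
  set d := m1 - m0 with hd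
  have hity : ∀ k, 1 ≤ k → k ≤ d → (nx ω')^[k] y = (nx ω)^[m0 + k] e := by
    intro k hk1
    induction k, hk1 using Nat.le_induction with
    | base =>
      intro _
      rw [Function.iterate_one, h.nx_y, ← hx0, ← Function.iterate_succ_apply' (nx ω)]
    | succ k hk ih =>
      intro hk2
      rw [Function.iterate_succ_apply', ih (by omega), show m0 + (k + 1) = (m0 + k) + 1 by ring,
        Function.iterate_succ_apply']
      exact h.nx_of_ne (hmid _ (by omega) (by omega)).1 (hmid _ (by omega) (by omega)).2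
  have hper : (nx ω')^[d] y = y := by
    rw [hity d (by omega) le_rfl, show m0 + d = m1 by omega, hy1]
  obtain ⟨ℓ, hℓ, hyℓ⟩ := hG' y
  obtain ⟨ℓ0, hℓ0, heℓ0⟩ := hG' e
  -- the elements of the loop of `y`
  have hmem : ∀ z ∈ ℓ, ∃ k, 1 ≤ k ∧ k ≤ d ∧ z = (nx ω)^[m0 + k] e := by
    intro z hz
    refine hℓ.induct (p := fun z => ∃ k, 1 ≤ k ∧ k ≤ d ∧ z = (nx ω)^[m0 + k] e) ?_ hyℓ hz
      ⟨d, by omega, le_rfl, by rw [show m0 + d = m1 by omega, hy1]⟩
    rintro z - ⟨k, hk1, hk2, rfl⟩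
    rcases Nat.lt_or_ge k d with h1 | h1
    · refine ⟨k + 1, by omega, by omega, ?_⟩
      rw [← hity k hk1 hk2, ← Function.iterate_succ_apply' (nx ω'), hity (k + 1) (by omega) (by omega)]
    · obtain rfl : k = d := by omega
      refine ⟨1, le_rfl, by omega, ?_⟩
      rw [show m0 + d = m1 by omega, hy1, h.nx_y, ← hx0, ← Function.iterate_succ_apply' (nx ω)]
  have heℓ : e ∉ ℓ := by
    intro h'
    obtain ⟨k, hk1, hk2, hk3⟩ := hmem e h'
    exact hinj 0 (m0 + k) (by omega) (by omega) hk3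
  have hxℓ : x ∉ ℓ := by
    intro h'
    obtain ⟨k, hk1, hk2, hk3⟩ := hmem x h'
    exact hinj m0 (m0 + k) (by omega) (by omega) (by rw [hx0]; exact hk3)
  have hne : ℓ ≠ ℓ0 := fun h' => heℓ (h' ▸ heℓ0)
  have hxℓ0 : x ∈ ℓ0 := (mem_loop_iff hℓ0 heℓ0).2 ⟨m0, by rw [hit0 m0 le_rfl, hx0]⟩
  have hyℓ0 : y ∉ ℓ0 := fun h' => hne (hℓ.eq_of_mem hℓ0 hyℓ h')
  have hT : ∑ z ∈ ℓ, trn ω' z = -4 := by
    have h1 := (s_two ω' ℓ ℓ0 hℓ hℓ0 hne).2 x hxℓ0 e heℓ0
    have h1' := (s_two ω' ℓ ℓ0 hℓ hℓ0 hne).2 e heℓ0 e heℓ0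
    have h2 : W ℓ (ls x) = 0 := by rw [h1.1, h1'.2.2]; exact hfar ℓ hℓ
    have h3 : W ℓ (ls y) = 0 := by
      rcases h.xy with ⟨rfl, rfl⟩ | ⟨rfl, rfl⟩
      · rw [← W_ls_open hℓ h.op']; exact h2
      · rw [W_ls_open hℓ h.op']; exact h2
    have h4 := s_jump ω' ℓ hℓ y
    rw [if_pos hyℓ, h3] at h4
    rcases turn_loop hℓ with ⟨-, h5⟩ | h5
    · have := h5 (rs y)
      omega
    · exact h5.1
  obtain ⟨m, hm, hmy, hmin, hsum⟩ := sum_loop hℓ hyℓ (trn ω')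
  have hmd : m = d := by
    rcases lt_trichotomy m d with h1 | h1 | h1
    · exfalso
      rw [hity m hm h1.le] at hmy
      exact hinj (m0 + m) m1 (by omega) le_rfl (by rw [hmy, hy1])
    · exact h1
    · exact absurd hper (hmin d (by omega) h1)
  subst hmd
  refine ⟨tu ω e m0, Ph_of hx0 fun k hk => (hpre k hk).1, ?_, ?_, ?_⟩
  · rw [Ph_of hy1 fun k hk => not_hit hk]
    congr 1
    have e1 : tu ω e m1 = tu ω e m0 + ∑ k ∈ range d, trn ω ((nx ω)^[m0 + k] e) := by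
      unfold tu
      rw [← Finset.sum_range_add, show m0 + d = m1 by omega]
    obtain ⟨d', hd'⟩ : ∃ d', d = d' + 1 := ⟨d - 1, by omega⟩
    rw [e1, hd', Finset.sum_range_succ', Nat.add_zero, hx0, h.tx.1]
    rw [hT, hd', Finset.sum_range_succ', Function.iterate_zero, id, h.ty.2] at hsum
    have e2 : ∑ k ∈ range d', trn ω' ((nx ω')^[k + 1] y) =
        ∑ k ∈ range d', trn ω ((nx ω)^[m0 + (k + 1)] e) := by
      refine Finset.sum_congr rfl fun k hk => ?_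
      rw [Finset.mem_range] at hk
      rw [hity (k + 1) (by omega) (by omega)]
      exact h.trn_of_ne (hmid _ (by omega) (by omega)).1 (hmid _ (by omega) (by omega)).2
    rw [e2] at hsum
    linarith
  · rw [Ph_of (j := m0) (by rw [hit0 m0 le_rfl, hx0])
      (fun k hk => by rw [hit0 k hk.le]; exact (hpre k hk).1), h.tu_eq hpre]
  · exact Ph_zero fun h' => hyℓ0 ((mem_loop_iff hℓ0 heℓ0).2 h')

/-- **Neither**. -/
theorem Fp.none (h : Fp ω ω' a x y) (hvx : ¬ ∃ j, (nx ω)^[j] e = x)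
    (hvy : ¬ ∃ j, (nx ω)^[j] e = y) (lam : ℂ) : Ph lam ω e x = 0 ∧ Ph lam ω e y = 0 ∧
      Ph lam ω' e x = 0 ∧ Ph lam ω' e y = 0 := by
  have hit0 : ∀ k, (nx ω')^[k] e = (nx ω)^[k] e := fun k =>
    h.iter (m := k) (fun j _ => ⟨fun h' => hvx ⟨j, h'⟩, fun h' => hvy ⟨j, h'⟩⟩) k le_rfl
  exact ⟨Ph_zero hvx, Ph_zero hvy, Ph_zero fun ⟨j, hj⟩ => hvx ⟨j, by rw [← hit0, hj]⟩,
    Ph_zero fun ⟨j, hj⟩ => hvy ⟨j, by rw [← hit0, hj]⟩⟩

/-! ### Conservation -/

/-- The current through the square `a`. -/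
noncomputable def Fl (lam : ℂ) (ω : Cfg) (e : Ed) (a : ℤ × ℤ) : ℂ :=
  Ph lam ω e (ia a) * (lam ^ trn ω (ia a) - 1) + Ph lam ω e (ib a) * (lam ^ trn ω (ib a) - 1)

/-- **Conservation of the current** at the square `a`. -/
theorem pair_zero {lam : ℂ} (hl : lam ≠ 0) {D : Finset (ℤ × ℤ)} (haD : a ∈ D) (hG : Good ω)
    (ha : ω a = false) (hfar : ∀ ℓ, IsLoop ω ℓ → W ℓ (rs e) = 0)
    (hfar' : ∀ ℓ, IsLoop (Function.update ω a true) ℓ → W ℓ (rs e) = 0) :
    (lam + lam⁻¹) ^ LD D ω * Fl lam ω e a +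
      (lam + lam⁻¹) ^ LD D (Function.update ω a true) * Fl lam (Function.update ω a true) e a =
        0 := by
  have hG' := good_update hG a true
  obtain ⟨f1, f2⟩ := f_flip D ω a hG haD ha
  set ω' := Function.update ω a true with hω'
  have hF : Fp ω ω' a (ia a) (ib a) := fp1 ha
  unfold Fl
  rw [hF.tx.1, hF.ty.1, hF.tx.2, hF.ty.2]
  obtain ⟨ℓ, hℓ, haℓ⟩ := hG (ia a)
  have hiff := same_loop_iff hℓ ha haℓ
  have hvis : ∀ z z' : Ed, (∃ j, (nx ω)^[j] e = z) → z ∈ ℓ → z' ∈ ℓ → ∃ j, (nx ω)^[j] e = z' := by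
    rintro z z' ⟨j, rfl⟩ h1 h2
    obtain ⟨k, hk⟩ := (mem_loop_iff hℓ h1).1 h2
    exact ⟨k + j, by rw [Function.iterate_add_apply, hk]⟩
  -- the loop of an edge of the interface of `e`
  have hz2 : ∀ t : ℤ, lam ^ (t + 2) = lam ^ t * lam ^ 2 := fun t => by
    rw [zpow_add₀ hl]; rfl
  have hz2' : ∀ t : ℤ, lam ^ (t - 2) = lam ^ t * (lam ^ 2)⁻¹ := fun t => by
    rw [sub_eq_add_neg, zpow_add₀ hl, zpow_neg]; rfl
  have hm1 : lam ^ (-1 : ℤ) = lam⁻¹ := zpow_neg_one lam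
  rw [hm1, zpow_one]
  by_cases hx : ∃ j, (nx ω)^[j] e = ia a <;> by_cases hy : ∃ j, (nx ω)^[j] e = ib a
  · have hPC : PC ω (pa a) (pb a) := by
      refine hiff.1 ?_
      obtain ⟨j, hj⟩ := hx
      obtain ⟨ℓ1, hℓ1, he1⟩ := hG e
      have h1 : ia a ∈ ℓ1 := (mem_loop_iff hℓ1 he1).2 ⟨j, hj⟩
      rw [hℓ.eq_of_mem hℓ1 haℓ h1]
      exact (mem_loop_iff hℓ1 he1).2 hy
    have hLD := f1 hPC
    have hne : hit ω e (ia a) ≠ hit ω e (ib a) := fun h' => by
      have h1 := hit_spec hx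
      rw [h', hit_spec hy] at h1
      exact ia_ne_ib a h1.symm
    rw [hLD, pow_succ]
    rcases lt_or_gt_of_ne hne with h1 | h1
    · obtain ⟨t, e1, e2, e3, e4⟩ := hF.split hG' hfar' hx hy h1 lam
      rw [e1, e2, e3, e4, hz2']
      field_simp
      ring
    · obtain ⟨t, e1, e2, e3, e4⟩ := hF.swap.split hG' hfar' hy hx h1 lam
      rw [e1, e2, e3, e4, hz2']
      field_simp
      ring
  · have hPC : ¬ PC ω (pa a) (pb a) := fun h' => hy (hvis _ _ hx haℓ (hiff.2 h'))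
    have hLD := f2 hPC
    obtain ⟨t, e1, e2, e3, e4⟩ := hF.merge hG hfar hx hy lam
    rw [← hLD, pow_succ, e1, e2, e3, e4, hz2]
    field_simp
    ring
  · have hPC : ¬ PC ω (pa a) (pb a) := fun h' => hx (hvis _ _ hy (hiff.2 h') haℓ)
    have hLD := f2 hPC
    obtain ⟨t, e1, e2, e3, e4⟩ := hF.swap.merge hG hfar hy hx lam
    rw [← hLD, pow_succ, e1, e2, e3, e4, hz2]
    field_simp
    ring
  · obtain ⟨e1, e2, e3, e4⟩ := hF.none hx hy lam
    rw [e1, e2, e3, e4]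
    ring

end Vale.Agent.P167.H947.Q
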