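import Vale.Agent.P167.H947.Q.Pf1
import Vale.Agent.P167.BR.Basic

/-!
# P167, general `q`, block Q-SRSW: the contour sum
-/

namespace Vale.Agent.P167.H947.Q

open Finset Vale.Agent.P167.FK Vale.Agent.P167.Top Relation
open Vale.Agent.P167.BR (eds mem_eds)

variable {ω η : Cfg} {a : ℤ × ℤ} {e : Ed} {D : Finset (ℤ × ℤ)}

/-- The weighted sum over the configurations. -/
noncomputable def EC (c : ℂ) (D : Finset (ℤ × ℤ)) (η : Cfg) (F : Cfg → ℂ) : ℂ :=
  ∑ S ∈ D.powerset, c ^ LD D (cf D η S) * F (cf D η S)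

theorem EC_add (c : ℂ) (D : Finset (ℤ × ℤ)) (η : Cfg) (F G : Cfg → ℂ) :
    EC c D η (fun ω => F ω + G ω) = EC c D η F + EC c D η G := by
  unfold EC
  rw [← Finset.sum_add_distrib]
  exact Finset.sum_congr rfl fun S _ => by ring

theorem EC_sub (c : ℂ) (D : Finset (ℤ × ℤ)) (η : Cfg) (F G : Cfg → ℂ) :
    EC c D η (fun ω => F ω - G ω) = EC c D η F - EC c D η G := by
  unfold EC
  rw [← Finset.sum_sub_distrib]
  exact Finset.sum_congr rfl fun S _ => by ring

theorem EC_sum {ι : Type*} (c : ℂ) (D : Finset (ℤ × ℤ)) (η : Cfg) (s : Finset ι)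
    (F : ι → Cfg → ℂ) : EC c D η (fun ω => ∑ i ∈ s, F i ω) = ∑ i ∈ s, EC c D η (F i) := by
  unfold EC
  rw [Finset.sum_comm]
  exact Finset.sum_congr rfl fun S _ => by rw [Finset.mul_sum]

/-- The boundary edges which leave `D`. -/
noncomputable def exs (D : Finset (ℤ × ℤ)) : Finset Ed :=
  (eds D).filter fun z => tlv z ∈ D ∧ hdv z ∉ D

/-- The boundary edges which enter `D`. -/
noncomputable def ens (D : Finset (ℤ × ℤ)) : Finset Ed :=
  (eds D).filter fun z => hdv z ∈ D ∧ tlv z ∉ D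

theorem mem_exs {z : Ed} : z ∈ exs D ↔ tlv z ∈ D ∧ hdv z ∉ D := by
  unfold exs
  rw [Finset.mem_filter, mem_eds]
  tauto

theorem mem_ens {z : Ed} : z ∈ ens D ↔ hdv z ∈ D ∧ tlv z ∉ D := by
  unfold ens
  rw [Finset.mem_filter, mem_eds]
  tauto

theorem cf_insert_mem (ha : a ∈ D) (η : Cfg) (S : Finset (ℤ × ℤ)) :
    cf D η (insert a S) = Function.update (cf D η S) a true := by
  funext v
  by_cases h : v = a
  · subst h
    rw [Function.update_self]
    simp [cf, ha]
  · rw [Function.update_of_ne h]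
    simp [cf, h]

/-- The current is conserved in the mean at every square of `D`. -/
theorem cons_sq {lam : ℂ} (hl : lam ≠ 0) (hη : Good η) (ha : a ∈ D)
    (hfar : ∀ S ∈ D.powerset, ∀ ℓ, IsLoop (cf D η S) ℓ → W ℓ (rs e) = 0) :
    EC (lam + lam⁻¹) D η (fun ω => Fl lam ω e a) = 0 := by
  classical
  unfold EC
  have hD : D = insert a (D.erase a) := (Finset.insert_erase ha).symm
  have hmem : ∀ S ∈ (D.erase a).powerset, S ∈ D.powerset ∧ insert a S ∈ D.powerset ∧ a ∉ S := by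
    intro S hS
    rw [Finset.mem_powerset] at hS
    refine ⟨Finset.mem_powerset.2 (hS.trans (Finset.erase_subset _ _)),
      Finset.mem_powerset.2 (Finset.insert_subset ha (hS.trans (Finset.erase_subset _ _))),
      fun h => ?_⟩
    exact (Finset.mem_erase.1 (hS h)).1 rfl
  have e1 : ∑ S ∈ D.powerset, (lam + lam⁻¹) ^ LD D (cf D η S) * Fl lam (cf D η S) e a =
      ∑ S ∈ (insert a (D.erase a)).powerset,
        (lam + lam⁻¹) ^ LD D (cf D η S) * Fl lam (cf D η S) e a := by rw [← hD]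
  rw [e1, Finset.sum_powerset_insert (Finset.notMem_erase a D), ← Finset.sum_add_distrib]
  refine Finset.sum_eq_zero fun S hS => ?_
  obtain ⟨h1, h2, h3⟩ := hmem S hS
  rw [cf_insert_mem ha]
  refine pair_zero hl ha (good_cf D hη S) ?_ (hfar S h1) ?_
  · simp [cf, ha, h3]
  · rw [← cf_insert_mem ha]
    exact hfar _ h2

theorem sum_in (D : Finset (ℤ × ℤ)) (g : Ed → ℂ) :
    ∑ a ∈ D, (g (ia a) + g (ib a)) = ∑ z ∈ (eds D).filter (fun z => hdv z ∈ D), g z := by
  classical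
  have h1 : (eds D).filter (fun z => hdv z ∈ D) = D.image ia ∪ D.image ib := by
    ext z
    rw [Finset.mem_filter, mem_eds, Finset.mem_union, Finset.mem_image, Finset.mem_image]
    constructor
    · rintro ⟨-, h⟩
      rcases eq_of_hdv (rfl : hdv z = hdv z) with h' | h'
      · exact Or.inl ⟨_, h, h'.symm⟩
      · exact Or.inr ⟨_, h, h'.symm⟩
    · rintro (⟨a, ha, rfl⟩ | ⟨a, ha, rfl⟩)
      · rw [hdv_ia]; exact ⟨Or.inl ha, ha⟩
      · rw [hdv_ib]; exact ⟨Or.inl ha, ha⟩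
  have hia : Function.Injective ia := fun a b h => by
    have := congrArg hdv h
    rwa [hdv_ia, hdv_ia] at this
  have hib : Function.Injective ib := fun a b h => by
    have := congrArg hdv h
    rwa [hdv_ib, hdv_ib] at this
  rw [h1, Finset.sum_union, Finset.sum_image fun _ _ _ _ h => hia h,
    Finset.sum_image fun _ _ _ _ h => hib h, Finset.sum_add_distrib]
  rw [Finset.disjoint_left]
  rintro z h2 h3
  obtain ⟨a, -, rfl⟩ := Finset.mem_image.1 h2
  obtain ⟨b, -, hb⟩ := Finset.mem_image.1 h3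
  have : b = a := by
    have := congrArg hdv hb
    rwa [hdv_ib, hdv_ia] at this
  subst this
  exact ia_ne_ib b hb.symm

theorem sum_out (ω : Cfg) (D : Finset (ℤ × ℤ)) (g : Ed → ℂ) :
    ∑ z ∈ (eds D).filter (fun z => hdv z ∈ D), g (nx ω z) =
      ∑ z ∈ (eds D).filter (fun z => tlv z ∈ D), g z := by
  classical
  refine Finset.sum_bij (fun z _ => nx ω z) ?_ ?_ ?_ ?_
  · intro z hz
    rw [Finset.mem_filter, mem_eds] at hz ⊢
    rw [tlv_nx]
    exact ⟨Or.inr hz.2, hz.2⟩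
  · intro z _ z' _ h
    exact nx_inj ω h
  · intro z hz
    rw [Finset.mem_filter, mem_eds] at hz
    obtain ⟨z', rfl⟩ := (s_nx ω).2 z
    refine ⟨z', ?_, rfl⟩
    rw [tlv_nx] at hz
    rw [Finset.mem_filter, mem_eds]
    exact ⟨Or.inl hz.2, hz.2⟩
  · intro z _
    rfl

/-- For one configuration, the sum of the currents through the squares of `D`. -/
theorem sum_Fl {lam : ℂ} (hl : lam ≠ 0) (ω : Cfg) (he : tlv e ∉ D) :
    ∑ a ∈ D, Fl lam ω e a = ∑ z ∈ exs D, Ph lam ω e z - ∑ z ∈ ens D, Ph lam ω e z := by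
  classical
  have h1 : ∀ a ∈ D, Fl lam ω e a =
      (Ph lam ω e (nx ω (ia a)) - Ph lam ω e (ia a)) +
        (Ph lam ω e (nx ω (ib a)) - Ph lam ω e (ib a)) := by
    intro a ha
    have ha1 : nx ω (ia a) ≠ e := by
      rintro rfl
      rw [tlv_nx, hdv_ia] at he
      exact he ha
    have ha2 : nx ω (ib a) ≠ e := by
      rintro rfl
      rw [tlv_nx, hdv_ib] at he
      exact he ha
    unfold Fl
    rw [Ph_nx hl ha1, Ph_nx hl ha2]
    ring
  rw [Finset.sum_congr rfl h1, sum_in D (fun z => Ph lam ω e (nx ω z) - Ph lam ω e z),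
    Finset.sum_sub_distrib, sum_out ω D (fun z => Ph lam ω e z)]
  have h2 : (eds D).filter (fun z => tlv z ∈ D) =
      exs D ∪ (eds D).filter (fun z => tlv z ∈ D ∧ hdv z ∈ D) := by
    ext z
    simp only [Finset.mem_union, mem_exs, Finset.mem_filter, mem_eds]
    tauto
  have h3 : (eds D).filter (fun z => hdv z ∈ D) =
      ens D ∪ (eds D).filter (fun z => tlv z ∈ D ∧ hdv z ∈ D) := by
    ext z
    simp only [Finset.mem_union, mem_ens, Finset.mem_filter, mem_eds]
    tauto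
  rw [h2, h3, Finset.sum_union, Finset.sum_union]
  · ring
  · rw [Finset.disjoint_left]
    intro z hz hz'
    rw [mem_ens] at hz
    rw [Finset.mem_filter] at hz'
    exact hz.2 hz'.2.1
  · rw [Finset.disjoint_left]
    intro z hz hz'
    rw [mem_exs] at hz
    rw [Finset.mem_filter] at hz'
    exact hz.2 hz'.2.2

/-- **The contour sum.** -/
theorem contour {lam : ℂ} (hl : lam ≠ 0) (hη : Good η) (he : tlv e ∉ D)
    (hfar : ∀ S ∈ D.powerset, ∀ ℓ, IsLoop (cf D η S) ℓ → W ℓ (rs e) = 0) :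
    ∑ z ∈ exs D, EC (lam + lam⁻¹) D η (fun ω => Ph lam ω e z) =
      ∑ z ∈ ens D, EC (lam + lam⁻¹) D η (fun ω => Ph lam ω e z) := by
  have h1 : EC (lam + lam⁻¹) D η (fun ω => ∑ a ∈ D, Fl lam ω e a) = 0 := by
    rw [EC_sum]
    exact Finset.sum_eq_zero fun a ha => cons_sq hl hη ha hfar
  have h2 : EC (lam + lam⁻¹) D η (fun ω => ∑ a ∈ D, Fl lam ω e a) =
      EC (lam + lam⁻¹) D η (fun ω => ∑ z ∈ exs D, Ph lam ω e z - ∑ z ∈ ens D, Ph lam ω e z) := by
    unfold EC
    refine Finset.sum_congr rfl fun S _ => ?_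
    simp only [sum_Fl hl _ he]
  rw [h2, EC_sub, EC_sum, EC_sum, sub_eq_zero] at h1
  exact h1

end Vale.Agent.P167.H947.Q
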