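import Vale.Agent.P167.H947.Q.Defs
import Vale.Agent.P167.H718.E2c
import Vale.Agent.P167.H871.DomT

/-!
# P167, general `q`, block Q-SRSW: the polygon of a rectangle
-/

namespace Vale.Agent.P167.H947.Q

open Finset Vale.Agent.P167.FK Vale.Agent.P167.BR
open Vale.Agent.P167.E6 (IsPolygon Encloses dir face)
open Vale.Agent.P167.H871 (Bd)
open Vale.Agent.P167.Top (vec dx dy)

/-- The number of the sides. -/
def rN (a b H : ℕ) : ℕ := 2 * (a + b) + 2 * H

/-- The boundary sites of the rectangle `[-b, a] × [0, H]`, counterclockwise from `(0, 0)`. -/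
def rp (a b H k : ℕ) : ℤ × ℤ :=
  if k ≤ a then (k, 0)
  else if k ≤ a + H then (a, k - a)
  else if k ≤ a + H + (a + b) then (2 * a + H - k, H)
  else if k ≤ a + 2 * H + (a + b) then (-b, 2 * a + 2 * H + b - k)
  else ((k : ℤ) - (rN a b H : ℕ), 0)

/-- The direction of the side number `k`. -/
def sd (a b H k : ℕ) : ℤ :=
  if k < a then 0 else if k < a + H then 1 else if k < a + H + (a + b) then 2
  else if k < a + 2 * H + (a + b) then 3 else 4

/-- The polygon. -/
def rq (a b H : ℕ) : ZMod (rN a b H) → ℤ × ℤ := fun i => rp a b H i.val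

variable {a b H : ℕ}

theorem rp_spec (a b H k : ℕ) :
    (k ≤ a ∧ (rp a b H k).1 = k ∧ (rp a b H k).2 = 0) ∨
    (a < k ∧ k ≤ a + H ∧ (rp a b H k).1 = a ∧ (rp a b H k).2 = k - a) ∨
    (a + H < k ∧ k ≤ 2 * a + b + H ∧ (rp a b H k).1 = 2 * a + H - k ∧ (rp a b H k).2 = H) ∨
    (2 * a + b + H < k ∧ k ≤ 2 * a + b + 2 * H ∧ (rp a b H k).1 = -b ∧
      (rp a b H k).2 = 2 * a + 2 * H + b - k) ∨
    (2 * a + b + 2 * H < k ∧ (rp a b H k).1 = k - (2 * (a + b) + 2 * H) ∧ (rp a b H k).2 = 0) := by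
  unfold rp rN
  split_ifs with h1 h2 h3 h4
  · exact Or.inl ⟨h1, rfl, rfl⟩
  · exact Or.inr (Or.inl ⟨by omega, h2, rfl, rfl⟩)
  · exact Or.inr (Or.inr (Or.inl ⟨by omega, by omega, rfl, rfl⟩))
  · exact Or.inr (Or.inr (Or.inr (Or.inl ⟨by omega, by omega, rfl, rfl⟩)))
  · exact Or.inr (Or.inr (Or.inr (Or.inr ⟨by omega, by push_cast; ring, rfl⟩)))

theorem sd_spec (a b H k : ℕ) :
    (k < a ∧ sd a b H k = 0) ∨ (a ≤ k ∧ k < a + H ∧ sd a b H k = 1) ∨
    (a + H ≤ k ∧ k < 2 * a + b + H ∧ sd a b H k = 2) ∨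
    (2 * a + b + H ≤ k ∧ k < 2 * a + b + 2 * H ∧ sd a b H k = 3) ∨
    (2 * a + b + 2 * H ≤ k ∧ sd a b H k = 4) := by
  unfold sd
  split_ifs with h1 h2 h3 h4
  · exact Or.inl ⟨h1, rfl⟩
  · exact Or.inr (Or.inl ⟨by omega, h2, rfl⟩)
  · exact Or.inr (Or.inr (Or.inl ⟨by omega, by omega, rfl⟩))
  · exact Or.inr (Or.inr (Or.inr (Or.inl ⟨by omega, by omega, rfl⟩)))
  · exact Or.inr (Or.inr (Or.inr (Or.inr ⟨by omega, rfl⟩)))

theorem rp_end : rp a b H (rN a b H) = rp a b H 0 := by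
  have h1 := rp_spec a b H (rN a b H)
  have h2 := rp_spec a b H 0
  unfold rN at h1 ⊢
  ext <;> omega

theorem rp_step (ha : 0 < a) (hb : 0 < b) (hH : 0 < H) {k : ℕ} (hk : k < rN a b H) :
    rp a b H (k + 1) = rp a b H k + vec (sd a b H k) := by
  have h1 := rp_spec a b H (k + 1)
  have h2 := rp_spec a b H k
  have h3 := sd_spec a b H k
  unfold rN at hk
  have h4 : (sd a b H k = 0 ∧ vec (sd a b H k) = (1, 0)) ∨
      (sd a b H k = 1 ∧ vec (sd a b H k) = (0, 1)) ∨
      (sd a b H k = 2 ∧ vec (sd a b H k) = (-1, 0)) ∨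
      (sd a b H k = 3 ∧ vec (sd a b H k) = (0, -1)) ∨
      (sd a b H k = 4 ∧ vec (sd a b H k) = (1, 0)) := by
    rcases h3 with h | h | h | h | h
    · rw [h.2]; simp [vec, dx, dy]
    · rw [h.2.2]; simp [vec, dx, dy]
    · rw [h.2.2]; simp [vec, dx, dy]
    · rw [h.2.2]; simp [vec, dx, dy]
    · rw [h.2]; simp [vec, dx, dy]
  ext
  · rw [Prod.fst_add]
    rcases h4 with ⟨h5, h6⟩ | ⟨h5, h6⟩ | ⟨h5, h6⟩ | ⟨h5, h6⟩ | ⟨h5, h6⟩ <;> rw [h6] <;>
      simp only <;> omega
  · rw [Prod.snd_add]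
    rcases h4 with ⟨h5, h6⟩ | ⟨h5, h6⟩ | ⟨h5, h6⟩ | ⟨h5, h6⟩ | ⟨h5, h6⟩ <;> rw [h6] <;>
      simp only <;> omega

theorem rp_inj (ha : 0 < a) (hb : 0 < b) (hH : 0 < H) {i j : ℕ} (hi : i < rN a b H)
    (hj : j < rN a b H) (h : rp a b H i = rp a b H j) : i = j := by
  have h1 := rp_spec a b H i
  have h2 := rp_spec a b H j
  rw [h] at h1
  unfold rN at hi hj
  omega

theorem rN_pos (ha : 0 < a) : 2 < rN a b H ∨ (a = 1 ∧ b = 0 ∧ H = 0) := by
  unfold rN; omega

theorem rq_nat (ha : 0 < a) {k : ℕ} (hk : k ≤ rN a b H) :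
    rq a b H (k : ZMod (rN a b H)) = rp a b H k := by
  have hn : NeZero (rN a b H) := ⟨by unfold rN; omega⟩
  unfold rq
  rcases hk.lt_or_eq with h | h
  · rw [ZMod.val_natCast, Nat.mod_eq_of_lt h]
  · subst h
    rw [ZMod.natCast_self, ZMod.val_zero, rp_end]

theorem rq_succ (ha : 0 < a) (i : ZMod (rN a b H)) :
    rq a b H (i + 1) = rp a b H (i.val + 1) ∧ rq a b H i = rp a b H i.val ∧ i.val < rN a b H := by
  have hn : NeZero (rN a b H) := ⟨by unfold rN; omega⟩
  refine ⟨?_, rfl, ZMod.val_lt i⟩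
  have h1 : i + 1 = ((i.val + 1 : ℕ) : ZMod (rN a b H)) := by
    push_cast
    rw [ZMod.natCast_val, ZMod.cast_id', id]
  rw [h1, rq_nat ha (by have := ZMod.val_lt i; omega)]

theorem vec_dir (a b H k : ℕ) : ∃ r : Fin 4, vec (sd a b H k) = dir r ∧
    ((r.val : ℕ) : ℤ) = sd a b H k % 4 := by
  rcases sd_spec a b H k with h | h | h | h | h
  · exact ⟨0, by rw [h.2]; simp [vec, dx, dy, dir], by rw [h.2]; rfl⟩
  · exact ⟨1, by rw [h.2.2]; simp [vec, dx, dy, dir], by rw [h.2.2]; rfl⟩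
  · exact ⟨2, by rw [h.2.2]; simp [vec, dx, dy, dir], by rw [h.2.2]; rfl⟩
  · exact ⟨3, by rw [h.2.2]; simp [vec, dx, dy, dir], by rw [h.2.2]; rfl⟩
  · exact ⟨0, by rw [h.2]; simp [vec, dx, dy, dir], by rw [h.2]; rfl⟩

theorem isPolygon_rq (ha : 0 < a) (hb : 0 < b) (hH : 0 < H) : IsPolygon (rq a b H) := by
  refine ⟨by unfold rN; omega, fun i j h => ?_, fun i => ?_⟩
  · obtain ⟨-, h1, h2⟩ := rq_succ (b := b) (H := H) ha i
    obtain ⟨-, h3, h4⟩ := rq_succ (b := b) (H := H) ha j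
    rw [h1, h3] at h
    have hn : NeZero (rN a b H) := ⟨by unfold rN; omega⟩
    exact ZMod.val_injective _ (rp_inj ha hb hH h2 h4 h)
  · obtain ⟨h1, h2, h3⟩ := rq_succ (b := b) (H := H) ha i
    obtain ⟨r, hr, -⟩ := vec_dir a b H i.val
    exact ⟨r, by rw [h1, h2, rp_step ha hb hH h3, hr]⟩

theorem mem_Rt {x0 x1 H : ℤ} {v : ℤ × ℤ} :
    v ∈ Rt x0 x1 H ↔ x0 ≤ v.1 ∧ v.1 < x1 ∧ 0 ≤ v.2 ∧ v.2 < H := by
  unfold Rt
  rw [Finset.mem_product, Finset.mem_Ico, Finset.mem_Ico]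
  tauto

theorem encloses_rq (ha : 0 < a) (hb : 0 < b) (hH : 0 < H) :
    Encloses (rq a b H) (Rt (-b) a H) := by
  intro v r
  rw [mem_Rt, mem_Rt]
  have f0 : face v 0 = (v.1, v.2) := by ext <;> simp [face]
  have f1 : face v 1 = (v.1 - 1, v.2) := by ext <;> simp [face] <;> ring
  have f2 : face v 2 = (v.1 - 1, v.2 - 1) := by ext <;> simp [face] <;> ring
  have f3 : face v 3 = (v.1, v.2 - 1) := by ext <;> simp [face] <;> ring
  have e0 : dir 0 = (1, 0) := rfl
  have e1 : dir 1 = (0, 1) := rfl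
  have e2 : dir 2 = (-1, 0) := rfl
  have e3 : dir 3 = (0, -1) := rfl
  have hn : NeZero (rN a b H) := ⟨by unfold rN; omega⟩
  constructor
  · rintro ⟨i, rfl, h2⟩
    obtain ⟨h3, h4, h5⟩ := rq_succ (b := b) (H := H) ha i
    rw [h4] at f0 f1 f2 f3 h2
    rw [h3] at h2
    rw [h4]
    have h6 := congrArg Prod.fst h2
    have h7 := congrArg Prod.snd h2
    rw [Prod.fst_add] at h6
    rw [Prod.snd_add] at h7
    clear h3 h4
    generalize i.val = m at *
    have s1 := rp_spec a b H (m + 1)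
    have s2 := rp_spec a b H m
    unfold rN at h5
    have hr : r = 0 ∨ r = 1 ∨ r = 2 ∨ r = 3 := by fin_cases r <;> simp
    rcases hr with rfl | rfl | rfl | rfl
    · rw [show (0 : Fin 4) - 1 = 3 from rfl, f0, f3]
      rw [e0] at h6 h7
      simp only at h6 h7 ⊢
      omega
    · rw [show (1 : Fin 4) - 1 = 0 from rfl, f0, f1]
      rw [e1] at h6 h7
      simp only at h6 h7 ⊢
      omega
    · rw [show (2 : Fin 4) - 1 = 1 from rfl, f2, f1]
      rw [e2] at h6 h7
      simp only at h6 h7 ⊢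
      omega
    · rw [show (3 : Fin 4) - 1 = 2 from rfl, f2, f3]
      rw [e3] at h6 h7
      simp only at h6 h7 ⊢
      omega
  · intro h
    obtain ⟨x, y⟩ := v
    have key : ∀ k : ℕ, k < rN a b H → rp a b H k = (x, y) → vec (sd a b H k) = dir r →
        ∃ i, rq a b H i = (x, y) ∧ rq a b H (i + 1) = (x, y) + dir r := by
      intro k hk h1 h2
      refine ⟨(k : ZMod (rN a b H)), by rw [rq_nat ha hk.le, h1], ?_⟩
      have h3 : ((k : ZMod (rN a b H)) + 1) = ((k + 1 : ℕ) : ZMod (rN a b H)) := by push_cast; rfl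
      rw [h3, rq_nat ha hk, rp_step ha hb hH hk, h1, h2]
    have hr : r = 0 ∨ r = 1 ∨ r = 2 ∨ r = 3 := by fin_cases r <;> simp
    rcases hr with rfl | rfl | rfl | rfl
    · rw [show (0 : Fin 4) - 1 = 3 from rfl, f0, f3] at h
      simp only at h
      rcases le_or_gt 0 x with hx | hx
      · obtain ⟨m, hm⟩ := Int.eq_ofNat_of_zero_le hx
        have s2 := rp_spec a b H m
        have s3 := sd_spec a b H m
        refine key m (by unfold rN; omega) (by ext <;> simp only <;> omega) ?_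
        rw [show sd a b H m = 0 by omega]; simp [vec, dx, dy, dir]
      · obtain ⟨m, hm⟩ := Int.eq_ofNat_of_zero_le (a := x + (2 * (a + b) + 2 * H)) (by omega)
        have s2 := rp_spec a b H m
        have s3 := sd_spec a b H m
        refine key m (by unfold rN; omega) (by ext <;> simp only <;> omega) ?_
        rw [show sd a b H m = 4 by omega]; simp [vec, dx, dy, dir]
    · rw [show (1 : Fin 4) - 1 = 0 from rfl, f0, f1] at h
      simp only at h
      obtain ⟨m, hm⟩ := Int.eq_ofNat_of_zero_le (a := a + y) (by omega)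
      have s2 := rp_spec a b H m
      have s3 := sd_spec a b H m
      refine key m (by unfold rN; omega) (by ext <;> simp only <;> omega) ?_
      rw [show sd a b H m = 1 by omega]; simp [vec, dx, dy, dir]
    · rw [show (2 : Fin 4) - 1 = 1 from rfl, f2, f1] at h
      simp only at h
      obtain ⟨m, hm⟩ := Int.eq_ofNat_of_zero_le (a := 2 * a + H - x) (by omega)
      have s2 := rp_spec a b H m
      have s3 := sd_spec a b H m
      refine key m (by unfold rN; omega) (by ext <;> simp only <;> omega) ?_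
      rw [show sd a b H m = 2 by omega]; simp [vec, dx, dy, dir]
    · rw [show (3 : Fin 4) - 1 = 2 from rfl, f2, f3] at h
      simp only at h
      obtain ⟨m, hm⟩ := Int.eq_ofNat_of_zero_le (a := 2 * a + 2 * H + b - y) (by omega)
      have s2 := rp_spec a b H m
      have s3 := sd_spec a b H m
      refine key m (by unfold rN; omega) (by ext <;> simp only <;> omega) ?_
      rw [show sd a b H m = 3 by omega]; simp [vec, dx, dy, dir]

/-- The lifted directions. -/
theorem exists_u (ha : 0 < a) (hb : 0 < b) (hH : 0 < H) : ∃ u : ℕ → ℤ,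
    Bd ((Rt (-b) a H : Finset (ℤ × ℤ)) : Set (ℤ × ℤ)) (rN a b H)
      (fun k => rq a b H (k : ZMod (rN a b H))) u 1 ∧
    ∀ k < rN a b H, u k - u 0 = sd a b H k := by
  obtain ⟨u, hu⟩ := Vale.Agent.P167.H871.exists_bd (isPolygon_rq ha hb hH) (encloses_rq ha hb hH)
  refine ⟨u, hu, ?_⟩
  have hmod : ∀ k < rN a b H, u k % 4 = sd a b H k % 4 := by
    intro k hk
    have h1 := hu.step k
    try simp only at h1
    rw [rq_nat ha hk, rq_nat ha hk.le, rp_step ha hb hH hk] at h1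
    have h2 := add_left_cancel h1
    have h3 := congrArg Prod.fst h2
    have h4 := congrArg Prod.snd h2
    simp only [vec] at h3 h4
    have c1 := Vale.Agent.P167.Top.head_cases (u k)
    have c2 := Vale.Agent.P167.Top.head_cases (sd a b H k)
    omega
  intro k
  induction k with
  | zero =>
    intro _
    have := sd_spec a b H 0
    omega
  | succ k ih =>
    intro hk
    have h1 := ih (by omega)
    have h2 := hmod (k + 1) hk
    have h3 := hmod k (by omega)
    have h4 := hu.turn k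
    rw [abs_le] at h4
    have s1 := sd_spec a b H k
    have s2 := sd_spec a b H (k + 1)
    omega

theorem parity_rq (ha : 0 < a) {k : ℕ} (hk : k ≤ rN a b H) :
    Even ((rq a b H (k : ZMod (rN a b H))).1 + (rq a b H (k : ZMod (rN a b H))).2) ↔ Even k := by
  rw [rq_nat ha hk]
  have h1 := rp_spec a b H k
  rw [Int.even_iff, Nat.even_iff]
  omega

end Vale.Agent.P167.H947.Q
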