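import Vale.Agent.P167.H947.Q.Pf2
import Vale.Agent.P167.H947.Q.Pf3

/-!
# P167, general `q`, block Q-SRSW: the outside of the rectangle
-/

namespace Vale.Agent.P167.H947.Q

open Finset Relation Vale.Agent.P167.FK Vale.Agent.P167.BR Vale.Agent.P167.Top
open Vale.Agent.P145.FB (PStep)
open Vale.Agent.P167.E6 (IsPolygon Encloses dir face)
open Vale.Agent.P167.E2
open Vale.Agent.P167.H718 (Dob OutC InC)

/-! ### Two steps around a boundary site -/

theorem nx2_free {ω : Cfg} {v : ℤ × ℤ} (hv : ¬ Even (v.1 + v.2)) (r : Fin 4)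
    (h1 : ω (face v (r - 1)) = false) (h2 : ω (face (v + dir r) (r - 1)) = false) :
    nx ω (nx ω (ce v r)) = ce (v + dir r) r ∧
      hdv (nx ω (ce v r)) = face (v + dir r) (r - 1) := by
  obtain ⟨x, y⟩ := v
  simp only at hv
  revert r
  refine forall4 ?_ ?_ ?_ ?_
  · rw [f4_0m, dir0, face3, face3, ce0, ce0]
    intro h1 h2
    have hv' : Even (x + (y - 1)) := by rw [Int.even_iff] at *; omega
    simp only at h1 h2 ⊢
    have h2' : ω (x + 1, y - 1) = false := by rw [← h2]; simp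
    simp [nx, hdv, hv', h1, h2']
  · rw [f4_1m, dir1, face0, face0, ce1, ce1]
    intro h1 h2
    have hv' : Even (x - 1 + y) := by rw [Int.even_iff] at *; omega
    have hv'' : ¬ Even (x + y) := hv
    simp only at h1 h2 ⊢
    have h2' : ω (x, y + 1) = false := by rw [← h2]; simp
    simp [nx, hdv, hv', h1, h2', hv'']
  · obtain ⟨x, rfl⟩ : ∃ x', x = x' + 1 := ⟨x - 1, by ring⟩
    obtain ⟨y, rfl⟩ : ∃ y', y = y' + 1 := ⟨y - 1, by ring⟩
    rw [f4_2m, dir2, face1, face1, ce2, ce2]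
    intro h1 h2
    have hv' : ¬ Even (x + y) := by rw [Int.even_iff] at *; omega
    have hv'' : ¬ Even (x - 1 + (y + 1)) := by rw [Int.even_iff] at *; omega
    simp only [Prod.mk_add_mk, add_sub_cancel_right, add_zero, Int.reduceNeg] at h1 h2 ⊢
    rw [show x + 1 + -1 = x by ring] at h2 ⊢
    simp [nx, hdv, hv', h1, h2, hv'']
  · obtain ⟨x, rfl⟩ : ∃ x', x = x' + 1 := ⟨x - 1, by ring⟩
    obtain ⟨y, rfl⟩ : ∃ y', y = y' + 1 := ⟨y - 1, by ring⟩
    rw [f4_3m, dir3, face2, face2, ce3, ce3]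
    intro h1 h2
    have hv' : ¬ Even (x + y) := by rw [Int.even_iff] at *; omega
    have hv'' : Even (x + (y - 1)) := by rw [Int.even_iff] at *; omega
    simp only [Prod.mk_add_mk, add_sub_cancel_right, add_zero, Int.reduceNeg] at h1 h2 ⊢
    rw [show y + 1 + -1 = y by ring] at h2 ⊢
    simp [nx, hdv, hv', h1, h2, hv'']

theorem nx2_wired {ω : Cfg} {x y : ℤ} (hv : ¬ Even (x + y)) (h1 : ω (x, y - 1) = true)
    (h2 : ω (x - 1, y - 1) = true) : nx ω (nx ω (ce (x, y) 0)) = ce (x - 1, y) 0 ∧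
      hdv (ce (x, y) 0) = (x, y - 1) ∧ hdv (nx ω (ce (x, y) 0)) = (x - 1, y - 1) := by
  rw [ce0, ce0]
  have hv' : Even (x + (y - 1)) := by rw [Int.even_iff] at *; omega
  have hv'' : ¬ Even (x - 1 + (y - 1)) := by rw [Int.even_iff] at *; omega
  simp [nx, hdv, hv', h1, h2, hv'']

/-! ### The context -/

/-- The rectangle, the wired arc of length `n`, and a configuration with the right outside. -/
structure Cx (a b H n : ℕ) (ω : Cfg) : Prop where
  ha : Odd a
  hb : Odd b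
  hH : Even H
  hH0 : 0 < H
  hn : Even n
  hnb : n < b
  out : ∀ v ∉ Rt (-b) a H, ω v = ea n v

variable {a b H n : ℕ} {ω : Cfg}

namespace Cx

variable (h : Cx a b H n ω)
include h

theorem a0 : 0 < a := h.ha.pos

theorem b0 : 0 < b := h.hb.pos

theorem poly : IsPolygon (rq a b H) := isPolygon_rq h.a0 h.b0 h.hH0

theorem enc : Encloses (rq a b H) (Rt (-b) a H) := encloses_rq h.a0 h.b0 h.hH0

theorem arith : a % 2 = 1 ∧ b % 2 = 1 ∧ H % 2 = 0 ∧ n % 2 = 0 ∧ rN a b H = 2 * (a + b) + 2 * H ∧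
    0 < a ∧ 0 < b ∧ 0 < H ∧ n < b := by
  refine ⟨Nat.odd_iff.1 h.ha, Nat.odd_iff.1 h.hb, Nat.even_iff.1 h.hH, Nat.even_iff.1 h.hn, rfl,
    h.a0, h.b0, h.hH0, h.hnb⟩

theorem cl {v : ℤ × ℤ} (h1 : v ∉ Rt (-b) a H) (h2 : ¬ (v.2 = -1 ∧ -(n : ℤ) ≤ v.1 ∧ v.1 < 0)) :
    ω v = false := by
  rw [h.out v h1]
  simp only [ea, decide_eq_false_iff_not]
  exact h2

theorem opn {v : ℤ × ℤ} (h2 : v.2 = -1 ∧ -(n : ℤ) ≤ v.1 ∧ v.1 < 0) : ω v = true := by
  have h1 : v ∉ Rt (-b) a H := by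
    rw [mem_Rt]
    omega
  rw [h.out v h1]
  simp only [ea, decide_eq_true_eq]
  exact h2

theorem be_rq {z : ℕ} (hz : z < rN a b H) : ∃ r : Fin 4,
    be (rq a b H) z = ce (rp a b H z) r ∧ vec (sd a b H z) = dir r ∧
      ((r.val : ℕ) : ℤ) = sd a b H z % 4 := by
  obtain ⟨r, h1, h2⟩ := vec_dir a b H z
  refine ⟨r, ?_, h1, h2⟩
  have h3 : rq a b H ((z : ZMod (rN a b H)) + 1) = rq a b H z + dir r := by
    have h4 : ((z : ZMod (rN a b H)) + 1) = ((z + 1 : ℕ) : ZMod (rN a b H)) := by push_cast; rfl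
    rw [h4, rq_nat h.a0 hz, rq_nat h.a0 hz.le, rp_step h.a0 h.b0 h.hH0 hz, h1]
  have h4 := ro_unique h.poly h3
  unfold be
  rw [← h4, rq_nat h.a0 hz.le]

/-- Two left turns outside of the free part. -/
theorem run_free {z : ℕ} (hz : Odd z) (hz1 : z + 1 < rN a b H - n) :
    nx ω (nx ω (be (rq a b H) z)) = be (rq a b H) (z + 1 : ℕ) ∧
      ω (hdv (be (rq a b H) z)) = false ∧ ω (hdv (nx ω (be (rq a b H) z))) = false ∧
      hdv (nx ω (be (rq a b H) z)) ∉ Rt (-b) a H := by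
  obtain ⟨a1, a2, a3, a4, a5, a6, a7, a8, a9⟩ := h.arith
  have hz' := Nat.odd_iff.1 hz
  have s1 := sd_spec a b H z
  have s2 := sd_spec a b H (z + 1)
  have p1 := rp_spec a b H z
  have p2 := rp_spec a b H (z + 1)
  obtain ⟨r, e1, e2, e3⟩ := h.be_rq (z := z) (by omega)
  obtain ⟨r', e1', e2', e3'⟩ := h.be_rq (z := z + 1) (by omega)
  have hsd : sd a b H (z + 1) = sd a b H z := by omega
  have hr : r' = r := by
    rw [hsd] at e3'
    apply Fin.ext
    omega
  subst hr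
  have hst := rp_step h.a0 h.b0 h.hH0 (show z < rN a b H by omega)
  rw [e2] at hst
  rw [e1, e1', hst]
  have hodd : ¬ Even ((rp a b H z).1 + (rp a b H z).2) := by
    rw [Int.even_iff]
    omega
  have key : face (rp a b H z) (r' - 1) ∉ Rt (-b) a H ∧
      ω (face (rp a b H z) (r' - 1)) = false ∧
      face (rp a b H z + dir r') (r' - 1) ∉ Rt (-b) a H ∧
      ω (face (rp a b H z + dir r') (r' - 1)) = false := by
    rw [← hst]
    have hr : r' = 0 ∨ r' = 1 ∨ r' = 2 ∨ r' = 3 := by clear e1 e2 e3 e1' e2' e3'; fin_cases r' <;> simp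
    rcases hr with rfl | rfl | rfl | rfl
    · have e4 : sd a b H z % 4 = 0 := e3.symm
      rw [f4_0m, face3, face3]
      have c1 : ((rp a b H z).1, (rp a b H z).2 - 1) ∉ Rt (-b) a H := by
        rw [mem_Rt]; simp only; omega
      have c2 : ((rp a b H (z + 1)).1, (rp a b H (z + 1)).2 - 1) ∉ Rt (-b) a H := by
        rw [mem_Rt]; simp only; omega
      exact ⟨c1, h.cl c1 (by simp only; omega), c2, h.cl c2 (by simp only; omega)⟩
    · have e4 : sd a b H z % 4 = 1 := e3.symm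
      rw [f4_1m, face0, face0]
      have c1 : ((rp a b H z).1, (rp a b H z).2) ∉ Rt (-b) a H := by
        rw [mem_Rt]; simp only; omega
      have c2 : ((rp a b H (z + 1)).1, (rp a b H (z + 1)).2) ∉ Rt (-b) a H := by
        rw [mem_Rt]; simp only; omega
      exact ⟨c1, h.cl c1 (by simp only; omega), c2, h.cl c2 (by simp only; omega)⟩
    · have e4 : sd a b H z % 4 = 2 := e3.symm
      rw [f4_2m, face1, face1]
      have c1 : ((rp a b H z).1 - 1, (rp a b H z).2) ∉ Rt (-b) a H := by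
        rw [mem_Rt]; simp only; omega
      have c2 : ((rp a b H (z + 1)).1 - 1, (rp a b H (z + 1)).2) ∉ Rt (-b) a H := by
        rw [mem_Rt]; simp only; omega
      exact ⟨c1, h.cl c1 (by simp only; omega), c2, h.cl c2 (by simp only; omega)⟩
    · have e4 : sd a b H z % 4 = 3 := e3.symm
      rw [f4_3m, face2, face2]
      have c1 : ((rp a b H z).1 - 1, (rp a b H z).2 - 1) ∉ Rt (-b) a H := by
        rw [mem_Rt]; simp only; omega
      have c2 : ((rp a b H (z + 1)).1 - 1, (rp a b H (z + 1)).2 - 1) ∉ Rt (-b) a H := by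
        rw [mem_Rt]; simp only; omega
      exact ⟨c1, h.cl c1 (by simp only; omega), c2, h.cl c2 (by simp only; omega)⟩
  obtain ⟨k1, k2, k3, k4⟩ := key
  obtain ⟨m1, m2⟩ := nx2_free hodd r' k2 k4
  refine ⟨m1, ?_, ?_, ?_⟩
  · rw [(ce_odd hodd r').2.2.2]
    exact k2
  · rw [m2]; exact k4
  · rw [m2]; exact k3

/-- Two right turns outside of the wired part. -/
theorem run_wired {z : ℕ} (hz : Odd z) (hz1 : rN a b H - n < z) (hz2 : z < rN a b H) :
    nx ω (nx ω (be (rq a b H) z)) = be (rq a b H) (z - 1 : ℕ) ∧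
      ω (hdv (be (rq a b H) z)) = true ∧ ω (hdv (nx ω (be (rq a b H) z))) = true ∧
      hdv (nx ω (be (rq a b H) z)) ∉ Rt (-b) a H := by
  obtain ⟨a1, a2, a3, a4, a5, a6, a7, a8, a9⟩ := h.arith
  have hz' := Nat.odd_iff.1 hz
  have s1 := sd_spec a b H z
  have s2 := sd_spec a b H (z - 1)
  have p1 := rp_spec a b H z
  have p2 := rp_spec a b H (z - 1)
  obtain ⟨r, e1, e2, e3⟩ := h.be_rq (z := z) (by omega)
  obtain ⟨r', e1', e2', e3'⟩ := h.be_rq (z := z - 1) (by omega)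
  have hr : r = 0 := by
    apply Fin.ext
    have : ((0 : Fin 4).val) = 0 := rfl
    omega
  have hr' : r' = 0 := by
    apply Fin.ext
    have : ((0 : Fin 4).val) = 0 := rfl
    omega
  subst hr hr'
  have hp : rp a b H z = ((rp a b H z).1, 0) := by ext <;> simp only <;> omega
  have hp' : rp a b H (z - 1) = ((rp a b H z).1 - 1, 0) := by ext <;> simp only <;> omega
  rw [e1, e1', hp', hp]
  set x := (rp a b H z).1 with hx
  have hodd : ¬ Even (x + 0) := by
    rw [Int.even_iff]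
    omega
  have k1 : ω (x, 0 - 1) = true := h.opn (by simp only; omega)
  have k2 : ω (x - 1, 0 - 1) = true := h.opn (by simp only; omega)
  obtain ⟨m1, m2, m3⟩ := nx2_wired hodd k1 k2
  refine ⟨m1, by rw [m2]; exact k1, by rw [m3]; exact k2, ?_⟩
  rw [m3, mem_Rt]
  simp only
  omega

end Cx

end Vale.Agent.P167.H947.Q
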