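import Vale.Agent.P167.H947.Q.Pf4
import Vale.Agent.P167.H871.RingDet

/-!
# P167, general `q`, block Q-SRSW: connections at the boundary of the rectangle
-/

namespace Vale.Agent.P167.H947.Q

open Finset Relation Vale.Agent.P167.FK Vale.Agent.P167.BR Vale.Agent.P167.Top
open Vale.Agent.P145.FB (PStep)
open Vale.Agent.P167.E6 (IsPolygon Encloses dir face)
open Vale.Agent.P167.E2
open Vale.Agent.P167.H718 (Dob OutC InC)

variable {a b H n : ℕ} {ω : Cfg}

/-! ### Symmetry, transitivity -/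

theorem DC.symm' {s t : ℤ × ℤ} (h : DC ω s t) : DC ω t s := by
  unfold DC at h ⊢
  induction h with
  | refl => exact ReflTransGen.refl
  | tail _ h1 ih => exact ReflTransGen.head h1.symm ih

theorem PC.symm' {s t : ℤ × ℤ} (h : PC ω s t) : PC ω t s := by
  unfold PC at h ⊢
  induction h with
  | refl => exact ReflTransGen.refl
  | tail _ h1 ih => exact ReflTransGen.head h1.symm ih

theorem DC.trans' {s t u : ℤ × ℤ} (h : DC ω s t) (h' : DC ω t u) : DC ω s u :=
  ReflTransGen.trans h h'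

theorem PC.trans' {s t u : ℤ × ℤ} (h : PC ω s t) (h' : PC ω t u) : PC ω s u :=
  ReflTransGen.trans h h'

theorem DC_nx (ω : Cfg) (e : Ed) : DC ω (rs e) (rs (nx ω e)) := by
  rcases Vale.Agent.P167.H871.rs_nx ω e with h | h
  · rw [h]; exact ReflTransGen.refl
  · exact ReflTransGen.single h

theorem PC_nx (ω : Cfg) (e : Ed) : PC ω (ls e) (ls (nx ω e)) := by
  rcases ls_nx_step ω e with h | h
  · rw [h]; exact ReflTransGen.refl
  · exact ReflTransGen.single h

theorem DC_iter (ω : Cfg) (e : Ed) (j : ℕ) : DC ω (rs e) (rs ((nx ω)^[j] e)) := by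
  induction j with
  | zero => exact ReflTransGen.refl
  | succ j ih =>
    rw [Function.iterate_succ_apply']
    exact DC.trans' ih (DC_nx ω _)

theorem PC_iter (ω : Cfg) (e : Ed) (j : ℕ) : PC ω (ls e) (ls ((nx ω)^[j] e)) := by
  induction j with
  | zero => exact ReflTransGen.refl
  | succ j ih =>
    rw [Function.iterate_succ_apply']
    exact PC.trans' ih (PC_nx ω _)

theorem W_DC' {ℓ : Finset Ed} (h : IsLoop ω ℓ) {s t : ℤ × ℤ} (hs : Odd (s.1 + s.2))
    (hst : DC ω s t) : W ℓ s = W ℓ t := by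
  have key : W ℓ s = W ℓ t ∧ Odd (t.1 + t.2) := by
    induction hst with
    | refl => exact ⟨rfl, hs⟩
    | tail _ h1 ih =>
      refine ⟨ih.1.trans (s_step ω ℓ h _ _ (Or.inr ⟨ih.2, h1⟩)), ?_⟩
      have h2 := ih.2
      rw [Int.odd_iff] at h2 ⊢
      obtain ⟨h3, h4, -⟩ := h1
      omega
  exact key.1

/-! ### The outside is good -/

theorem good_ea (n : ℕ) : Good (ea n) := by
  have h : ea n = cf (Finset.Ico (-(n : ℤ)) 0 ×ˢ {-1}) eta0 (Finset.Ico (-(n : ℤ)) 0 ×ˢ {-1}) := by
    funext v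
    unfold cf ea eta0
    have h1 : v ∈ Finset.Ico (-(n : ℤ)) 0 ×ˢ ({-1} : Finset ℤ) ↔
        (v.2 = -1 ∧ -(n : ℤ) ≤ v.1 ∧ v.1 < 0) := by
      rw [Finset.mem_product, Finset.mem_Ico, Finset.mem_singleton]
      tauto
    by_cases h2 : v ∈ Finset.Ico (-(n : ℤ)) 0 ×ˢ ({-1} : Finset ℤ)
    · rw [if_pos h2]
      simp only [h2, decide_true, decide_eq_true_eq]
      exact h1.1 h2
    · rw [if_neg h2]
      simp only [decide_eq_false_iff_not]
      exact fun h3 => h2 (h1.2 h3)
  rw [h]
  exact good_cf _ good_eta0 _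

namespace Cx

variable (h : Cx a b H n ω)
include h

theorem good : Good ω := by
  have h1 : ω = cf (Rt (-b) a H) (ea n) ((Rt (-b) a H).filter fun v => ω v = true) := by
    funext v
    unfold cf
    by_cases hv : v ∈ Rt (-b) a H
    · rw [if_pos hv]
      simp [hv]
    · rw [if_neg hv, h.out v hv]
  rw [h1]
  exact good_cf _ (good_ea n) _

/-! ### The parity of the boundary sites -/

theorem ev {z : ℕ} (hz : z ≤ rN a b H) :
    Even ((rq a b H z).1 + (rq a b H z).2) ↔ Even z := parity_rq h.a0 hz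

theorem nev {z : ℕ} (hz : z ≤ rN a b H) (ho : Odd z) :
    ¬ Even ((rq a b H z).1 + (rq a b H z).2) := by
  rw [h.ev hz, Nat.not_even_iff_odd]
  exact ho

/-- An entering edge. -/
theorem ein {z : ℕ} (hz : z < rN a b H) (he : Even z) :
    ls (be (rq a b H) z) = rp a b H z ∧ rs (be (rq a b H) z) = rp a b H (z + 1) ∧
      hdv (be (rq a b H) z) ∈ Rt (-b) a H ∧ tlv (be (rq a b H) z) ∉ Rt (-b) a H := by
  obtain ⟨h1, h2, h3, h4⟩ := be_even h.poly h.enc ((h.ev hz.le).2 he)
  refine ⟨by rw [h1, rq_nat h.a0 hz.le], ?_, h3, h4⟩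
  rw [h2, ← rq_nat h.a0 hz]
  push_cast
  rfl

/-- A leaving edge. -/
theorem eout {z : ℕ} (hz : z < rN a b H) (ho : Odd z) :
    rs (be (rq a b H) z) = rp a b H z ∧ ls (be (rq a b H) z) = rp a b H (z + 1) ∧
      tlv (be (rq a b H) z) ∈ Rt (-b) a H ∧ hdv (be (rq a b H) z) ∉ Rt (-b) a H := by
  obtain ⟨h1, h2, h3, h4⟩ := be_odd h.poly h.enc (h.nev hz.le ho)
  refine ⟨by rw [h1, rq_nat h.a0 hz.le], ?_, h3, h4⟩
  rw [h2, ← rq_nat h.a0 hz]
  push_cast
  rfl

theorem rp0 : rp a b H 0 = (0, 0) := by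
  have := rp_spec a b H 0
  ext <;> simp only <;> omega

theorem rp1 : rp a b H 1 = (1, 0) := by
  have := rp_spec a b H 1
  have := h.arith
  ext <;> simp only <;> omega

theorem rpN : rp a b H (rN a b H) = (0, 0) := by
  rw [rp_end, h.rp0]

/-! ### The free part is one dual cluster -/

theorem dc_free {z : ℕ} (ho : Odd z) (hz : z < rN a b H - n) : DC ω (rp a b H z) (1, 0) := by
  have key : ∀ m : ℕ, 2 * m + 1 < rN a b H - n → DC ω (rp a b H (2 * m + 1)) (1, 0) := by
    intro m
    induction m with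
    | zero =>
      intro _
      rw [show 2 * 0 + 1 = 1 from rfl, h.rp1]
      exact ReflTransGen.refl
    | succ m ih =>
      intro hm
      have h1 := ih (by omega)
      have ho : Odd (2 * m + 1) := ⟨m, rfl⟩
      obtain ⟨r1, -, -, -⟩ := h.run_free ho (by omega)
      have h2 := DC_iter ω (be (rq a b H) (2 * m + 1 : ℕ)) 2
      rw [Function.iterate_succ_apply', Function.iterate_one, r1,
        (h.eout (by omega) ho).1, (h.ein (z := 2 * m + 1 + 1) (by omega) ⟨m + 1, by ring⟩).2.1] at h2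
      rw [show 2 * (m + 1) + 1 = 2 * m + 1 + 1 + 1 by ring]
      exact DC.trans' (DC.symm' h2) h1
  obtain ⟨m, rfl⟩ := ho
  exact key m hz

/-- The wired part is one primal cluster. -/
theorem pc_wired {z : ℕ} (he : Even z) (hz : rN a b H - n ≤ z) (hz2 : z ≤ rN a b H) :
    PC ω (rp a b H z) (0, 0) := by
  have hN : Even (rN a b H) := by
    have := h.arith
    rw [Nat.even_iff]; omega
  have key : ∀ m : ℕ, 2 * m ≤ n → PC ω (rp a b H (rN a b H - 2 * m)) (0, 0) := by
    intro m
    induction m with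
    | zero =>
      intro _
      rw [show rN a b H - 2 * 0 = rN a b H by omega, h.rpN]
      exact ReflTransGen.refl
    | succ m ih =>
      intro hm
      have h1 := ih (by omega)
      have h0 := h.arith
      have hev := Nat.even_iff.1 hN
      have ho : Odd (rN a b H - 2 * m - 1) := by rw [Nat.odd_iff]; omega
      obtain ⟨r1, -, -, -⟩ := h.run_wired ho (by omega) (by omega)
      have h2 := PC_iter ω (be (rq a b H) (rN a b H - 2 * m - 1 : ℕ)) 2
      rw [Function.iterate_succ_apply', Function.iterate_one, r1,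
        (h.eout (by omega) ho).2.1, (h.ein (z := rN a b H - 2 * m - 1 - 1) (by omega) (by
          rw [Nat.even_iff]; omega)).1] at h2
      rw [show rN a b H - 2 * (m + 1) = rN a b H - 2 * m - 1 - 1 by omega]
      rw [show rN a b H - 2 * m - 1 + 1 = rN a b H - 2 * m by omega] at h2
      exact PC.trans' (PC.symm' h2) h1
  rw [Nat.even_iff] at he hN
  obtain ⟨m, hm⟩ : ∃ m, z = rN a b H - 2 * m := ⟨(rN a b H - z) / 2, by omega⟩
  subst hm
  have := h.arith
  rcases le_or_gt (2 * m) (rN a b H) with h3 | h3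
  · exact key m (by omega)
  · have h4 := key 0 (by omega)
    rw [show rN a b H - 2 * m = 0 by omega] at hz ⊢
    omega

/-! ### Far away -/

theorem far {ℓ : Finset Ed} (hℓ : IsLoop ω ℓ) : W ℓ (1, 0) = 0 := by
  have hpath : ∀ m : ℕ, DC ω (1, 0) (1, -(2 * m : ℤ)) := by
    intro m
    induction m with
    | zero => exact ReflTransGen.refl
    | succ m ih =>
      refine (ih.tail (b := (1, -(2 * m : ℤ))) (c := (2, -(2 * m : ℤ) - 1)) ?_).tail ?_
      · refine ⟨Or.inl rfl, Or.inr rfl, ?_⟩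
        have e1 : min (1 : ℤ) 2 = 1 := rfl
        have e2 : min (-(2 * m : ℤ)) (-(2 * m : ℤ) - 1) = -(2 * m : ℤ) - 1 := by omega
        simp only [e1, e2]
        have : ω (1, -(2 * m : ℤ) - 1) = false := by
          refine h.cl ?_ ?_
          · rw [mem_Rt]; simp only; omega
          · simp only; omega
        simp [op, this]
      · refine ⟨Or.inr rfl, Or.inr (by push_cast; ring), ?_⟩
        have e1 : min (2 : ℤ) 1 = 1 := rfl
        have e2 : min (-(2 * m : ℤ) - 1) (-(2 * (m + 1 : ℕ) : ℤ)) = -(2 * m : ℤ) - 2 := by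
          push_cast; omega
        simp only [e1, e2]
        have : ω (1, -(2 * m : ℤ) - 2) = false := by
          refine h.cl ?_ ?_
          · rw [mem_Rt]; simp only; omega
          · simp only; omega
        simp [op, this]
  set M : ℤ := ∑ v ∈ vs ℓ, (|v.1| + |v.2|) with hM
  have hb : ∀ v ∈ vs ℓ, -M ≤ v.1 ∧ v.1 ≤ M ∧ -M ≤ v.2 ∧ v.2 ≤ M := by
    intro v hv
    have h1 : |v.1| + |v.2| ≤ M :=
      Finset.single_le_sum (f := fun v : ℤ × ℤ => |v.1| + |v.2|) (fun w _ => by positivity) hv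
    have h2 := abs_nonneg v.1
    have h3 := abs_nonneg v.2
    have h4 := le_abs_self v.1
    have h5 := neg_abs_le v.1
    have h6 := le_abs_self v.2
    have h7 := neg_abs_le v.2
    refine ⟨?_, ?_, ?_, ?_⟩ <;> linarith
  have hM0 : 0 ≤ M := Finset.sum_nonneg fun w _ => by positivity
  have h1 := W_DC' hℓ (s := (1, 0)) (by decide) (hpath M.toNat)
  rw [h1]
  by_contra hne
  have h2 := s_out ω ℓ hℓ (-M) M (-M) M hb _ hne
  have h3 : (M.toNat : ℤ) = M := Int.toNat_of_nonneg hM0
  have h4 := h2.2.2.1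
  simp only [h3] at h4
  omega

end Cx

end Vale.Agent.P167.H947.Q
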