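import Vale.Agent.P167.H947.Q.Pf5

/-!
# P167, general `q`, block Q-SRSW: the turning of the interface at the boundary is deterministic
-/

namespace Vale.Agent.P167.H947.Q

open Finset Relation Vale.Agent.P167.FK Vale.Agent.P167.BR Vale.Agent.P167.Top
open Vale.Agent.P145.FB (PStep)
open Vale.Agent.P167.E6 (IsPolygon Encloses dir face)
open Vale.Agent.P167.E2
open Vale.Agent.P167.H871 (Bd P4 M4)
open Vale.Agent.P167.H718 (Dob OutC InC IsXY lft)

/-- A path which starts in `D` and ends at a site of `P` reaches a site of `P` inside `D`, if all sites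
where it can leave `D` are in `P`. -/
theorem split {F : Set (ℤ × ℤ)} {D : Finset (ℤ × ℤ)} {P : ℤ × ℤ → Prop} {s t : ℤ × ℤ}
    (hs : s ∈ sites D) (hst : ReflTransGen (PStep F) s t)
    (hP : ∀ x ∈ sites D, (Even (x.1 + x.2) ↔ Even (s.1 + s.2)) → ∀ v ∈ F, v ∉ D →
      ((x.1 = v.1 ∨ x.1 = v.1 + 1) ∧ (x.2 = v.2 ∨ x.2 = v.2 + 1)) → P x) (ht : P t) :
    ∃ x, P x ∧ ReflTransGen (PStep (F ∩ (↑D : Set (ℤ × ℤ)))) s x := by
  by_contra hcon
  push Not at hcon
  have key : t ∈ sites D ∧ (Even (t.1 + t.2) ↔ Even (s.1 + s.2)) ∧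
      ReflTransGen (PStep (F ∩ (↑D : Set (ℤ × ℤ)))) s t := by
    clear ht
    induction hst with
    | refl => exact ⟨hs, Iff.rfl, ReflTransGen.refl⟩
    | @tail x y _ hxy ih =>
      obtain ⟨i1, i2, i3⟩ := ih
      by_cases hv : (min x.1 y.1, min x.2 y.2) ∈ D
      · have h1 : PStep (F ∩ (↑D : Set (ℤ × ℤ))) x y := ⟨hxy.1, hxy.2.1, hxy.2.2, hv⟩
        have h2 := (Vale.Agent.P167.H718.mem_sites_of_step h1).2
        refine ⟨h2, ?_, i3.tail h1⟩
        rw [← i2, Int.even_iff, Int.even_iff]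
        obtain ⟨h3, h4, -⟩ := hxy
        omega
      · exfalso
        refine hcon x (hP x i1 i2 _ hxy.2.2 hv ?_) i3
        obtain ⟨h3, h4, -⟩ := hxy
        simp only
        omega
  exact hcon t ht key.2.2

theorem mem_sites_Rt {x0 x1 H : ℤ} {s : ℤ × ℤ} (hs : s ∈ sites (Rt x0 x1 H)) :
    x0 ≤ s.1 ∧ s.1 ≤ x1 ∧ 0 ≤ s.2 ∧ s.2 ≤ H := by
  obtain ⟨v, hv, h1, h2⟩ := mem_sites.1 hs
  rw [mem_Rt] at hv
  omega

variable {a b H n : ℕ} {ω : Cfg}

namespace Cx

variable (h : Cx a b H n ω)
include h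

theorem rp_mem_sites {z : ℕ} (hz : z < rN a b H) : rp a b H z ∈ sites (Rt (-b) a H) := by
  rcases Nat.even_or_odd z with h1 | h1
  · have h2 := h.ein hz h1
    have h3 := ls_mem_sites (e := be (rq a b H) z) (D := Rt (-b) a H) (mem_eds.2 (Or.inl h2.2.2.1))
    rwa [h2.1] at h3
  · have h2 := h.eout hz h1
    have h3 := rs_mem_sites (e := be (rq a b H) z) (D := Rt (-b) a H) (mem_eds.2 (Or.inr h2.2.2.1))
    rwa [h2.1] at h3

/-- A boundary site which is connected to the wired part is connected inside of the rectangle. -/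
theorem splitP {s : ℤ × ℤ} (hs : s ∈ sites (Rt (-b) a H)) (hst : PC ω s (0, 0)) :
    ∃ i : ℕ, rN a b H - n ≤ i ∧ i ≤ rN a b H ∧ InC ω (Rt (-b) a H) s (rp a b H i) := by
  have h0 := h.arith
  have hP : ∀ x ∈ sites (Rt (-b) a H), (Even (x.1 + x.2) ↔ Even (s.1 + s.2)) → ∀ v ∈ op ω,
      v ∉ Rt (-b) a H → ((x.1 = v.1 ∨ x.1 = v.1 + 1) ∧ (x.2 = v.2 ∨ x.2 = v.2 + 1)) →
      ∃ i : ℕ, rN a b H - n ≤ i ∧ i ≤ rN a b H ∧ rp a b H i = x := by
    intro x hx _ v hv hvD hc
    have h4 : ω v = true := hv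
    rw [h.out v hvD] at h4
    simp only [ea, decide_eq_true_eq] at h4
    have h5 := mem_sites_Rt hx
    obtain ⟨m, hm⟩ := Int.eq_ofNat_of_zero_le (a := -x.1) (by omega)
    refine ⟨rN a b H - m, by omega, by omega, ?_⟩
    have h6 := rp_spec a b H (rN a b H - m)
    ext <;> omega
  obtain ⟨x, ⟨i, h1, h2, h4⟩, h3⟩ := split hs hst hP ⟨rN a b H, by omega, le_rfl, h.rpN⟩
  rw [← h4] at h3
  exact ⟨i, h1, h2, h3⟩

/-- The same for the dual connections to the free part. -/
theorem splitD {s : ℤ × ℤ} (hs : s ∈ sites (Rt (-b) a H)) (ho : ¬ Even (s.1 + s.2))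
    (hst : DC ω s (1, 0)) :
    ∃ i : ℕ, 0 < i ∧ i < rN a b H - n ∧
      ReflTransGen (PStep ((op ω)ᶜ ∩ (↑(Rt (-b) a H) : Set (ℤ × ℤ)))) s (rp a b H i) := by
  have h0 := h.arith
  have hP : ∀ x ∈ sites (Rt (-b) a H), (Even (x.1 + x.2) ↔ Even (s.1 + s.2)) → ∀ v ∈ (op ω)ᶜ,
      v ∉ Rt (-b) a H → ((x.1 = v.1 ∨ x.1 = v.1 + 1) ∧ (x.2 = v.2 ∨ x.2 = v.2 + 1)) →
      ∃ i : ℕ, 0 < i ∧ i < rN a b H - n ∧ rp a b H i = x := by
    intro x hx hpar v hv hvD hc
    have h4 : ¬ (ω v = true) := hv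
    have h4' : ¬ (v.2 = -1 ∧ -(n : ℤ) ≤ v.1 ∧ v.1 < 0) := fun h5 => h4 (h.opn h5)
    have h5 := mem_sites_Rt hx
    rw [mem_Rt] at hvD
    have hpar' : ¬ Even (x.1 + x.2) := fun h6 => ho (hpar.1 h6)
    rw [Int.even_iff] at hpar'
    rcases le_or_gt x.2 0 with c1 | c1
    · rcases le_or_gt x.1 0 with c2 | c2
      · obtain ⟨m, hm⟩ := Int.eq_ofNat_of_zero_le (a := -x.1) (by omega)
        refine ⟨rN a b H - m, by omega, by omega, ?_⟩
        have h6 := rp_spec a b H (rN a b H - m)
        ext <;> omega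
      · obtain ⟨m, hm⟩ := Int.eq_ofNat_of_zero_le (a := x.1) (by omega)
        refine ⟨m, by omega, by omega, ?_⟩
        have h6 := rp_spec a b H m
        ext <;> omega
    · rcases lt_or_ge x.1 a with c2 | c2
      · rcases lt_or_ge x.2 H with c3 | c3
        · obtain ⟨m, hm⟩ := Int.eq_ofNat_of_zero_le (a := 2 * a + 2 * H + b - x.2) (by omega)
          refine ⟨m, by omega, by omega, ?_⟩
          have h6 := rp_spec a b H m
          ext <;> omega
        · obtain ⟨m, hm⟩ := Int.eq_ofNat_of_zero_le (a := 2 * a + H - x.1) (by omega)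
          refine ⟨m, by omega, by omega, ?_⟩
          have h6 := rp_spec a b H m
          ext <;> omega
      · obtain ⟨m, hm⟩ := Int.eq_ofNat_of_zero_le (a := a + x.2) (by omega)
        refine ⟨m, by omega, by omega, ?_⟩
        have h6 := rp_spec a b H m
        ext <;> omega
  obtain ⟨x, ⟨i, h1, h2, h4⟩, h3⟩ := split hs hst hP ⟨1, by omega, by omega, h.rp1⟩
  rw [← h4] at h3
  exact ⟨i, h1, h2, h3⟩

omit h in
/-- Potentials are constant along dual paths. -/
theorem pot_InD {A : Finset Ed} {u : ℤ × ℤ → ℤ} (hA : A ∈ pcs ω (Rt (-b) a H))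
    (hu : PotD (Rt (-b) a H) A u) {s t : ℤ × ℤ} (ho : ¬ Even (s.1 + s.2))
    (hst : ReflTransGen (PStep ((op ω)ᶜ ∩ (↑(Rt (-b) a H) : Set (ℤ × ℤ)))) s t) : u s = u t := by
  have key : u s = u t ∧ ¬ Even (t.1 + t.2) := by
    induction hst with
    | refl => exact ⟨rfl, ho⟩
    | tail _ h1 ih =>
      refine ⟨ih.1.trans (pot_stp hA hu (Or.inr ⟨ih.2, h1⟩)), ?_⟩
      have h2 := ih.2
      obtain ⟨h3, h4, -⟩ := h1
      rw [Int.even_iff] at h2 ⊢
      omega
  exact key.1

/-- Entering through the free part: the exit is later. -/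
theorem ord_free {A : Finset Ed} (hA : A ∈ pcs ω (Rt (-b) a H)) {x y : ℕ}
    (hxy : IsXY (rq a b H) A x y) (hx : x < rN a b H - n) (hPC : PC ω (rp a b H x) (0, 0)) :
    x < y := by
  have hne := hxy.ne
  by_contra hlt
  have hyx : y < x := by omega
  obtain ⟨i, h1, h2, h3⟩ := h.splitP (h.rp_mem_sites hxy.1) hPC
  obtain ⟨u, hu⟩ := exists_pot h.poly h.enc hA
  have hev := hxy.2.2.2.2.1
  rw [rq_nat h.a0 hxy.1.le] at hev
  have h4 := Vale.Agent.P167.H718.pot_InC hA hu hev h3
  have h5 := Vale.Agent.P167.H718.pot_lft h.poly h.enc hA hu hxy (w := x) hxy.1.le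
  have h6 := Vale.Agent.P167.H718.pot_lft h.poly h.enc hA hu hxy (w := i) h2
  rw [if_pos (show lft x y x from Or.inr ⟨hyx, hyx, le_rfl⟩), rq_nat h.a0 hxy.1.le] at h5
  rw [if_neg (by unfold lft; omega), rq_nat h.a0 h2] at h6
  omega

/-- Entering through the wired part: the exit is earlier. -/
theorem ord_wired {A : Finset Ed} (hA : A ∈ pcs ω (Rt (-b) a H)) {x y : ℕ}
    (hxy : IsXY (rq a b H) A x y) (hx : rN a b H - n ≤ x)
    (hDC : DC ω (rp a b H (x + 1)) (1, 0)) : y < x := by
  have hne := hxy.ne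
  have h0 := h.arith
  by_contra hlt
  have hyx : x < y := by omega
  have hex : Even x := (h.ev hxy.1.le).1 hxy.2.2.2.2.1
  have hey : Odd y := by
    rw [← Nat.not_even_iff_odd, ← h.ev hxy.2.1.le]
    exact hxy.2.2.2.2.2
  have hx1 : x + 1 ≤ y := hyx
  have hxN : x + 1 < rN a b H := lt_of_le_of_lt hx1 hxy.2.1
  have hpar : ¬ Even ((rp a b H (x + 1)).1 + (rp a b H (x + 1)).2) := by
    rw [← rq_nat h.a0 hxN.le, h.ev hxN.le, Nat.even_iff]
    rw [Nat.even_iff] at hex
    omega
  obtain ⟨i, h1, h2, h3⟩ := h.splitD (h.rp_mem_sites hxN) hpar hDC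
  obtain ⟨u, hu⟩ := exists_pot h.poly h.enc hA
  have h4 := pot_InD hA hu hpar h3
  have h5 := Vale.Agent.P167.H718.pot_lft h.poly h.enc hA hu hxy (w := x + 1) hxN.le
  have h6 := Vale.Agent.P167.H718.pot_lft h.poly h.enc hA hu hxy (w := i) (by omega)
  rw [if_neg (by unfold lft; omega), rq_nat h.a0 hxN.le] at h5
  rw [if_pos (show lft x y i from Or.inl ⟨hyx, Or.inl (by omega)⟩), rq_nat h.a0 (by omega)] at h6
  omega

/-! ### Determinism -/

/-- The exponent of the side `z`. -/
def _root_.Vale.Agent.P167.H947.Q.tau (a b H n z : ℕ) : ℤ :=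
  if z % 2 = 1 then sd a b H z - 2 else if z < rN a b H - n then sd a b H z
    else sd a b H z - 4

omit h in
theorem P4_ce (v : ℤ × ℤ) (r : Fin 4) : P4 (ce v r) = M4 v ((r.val : ℕ) : ℤ) := by
  obtain ⟨x, y⟩ := v
  rw [Vale.Agent.P167.H871.M4_eq]
  revert r
  refine forall4 ?_ ?_ ?_ ?_
  · rw [ce0]
    have h1 : ((((0 : Fin 4)).val : ℕ) : ℤ) = 0 := rfl
    have h2 : dx 0 = 1 := by simp [dx]
    have h3 : dy 0 = 0 := by simp [dy]
    rw [h1, h2, h3]
    unfold P4 me
    ext <;> simp only <;> ring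
  · rw [ce1]
    have h1 : ((((1 : Fin 4)).val : ℕ) : ℤ) = 1 := rfl
    have h2 : dx 1 = 0 := by simp [dx]
    have h3 : dy 1 = 1 := by simp [dy]
    rw [h1, h2, h3]
    unfold P4 me
    ext <;> simp only <;> ring
  · rw [ce2]
    have h1 : ((((2 : Fin 4)).val : ℕ) : ℤ) = 2 := rfl
    have h2 : dx 2 = -1 := by simp [dx]
    have h3 : dy 2 = 0 := by simp [dy]
    rw [h1, h2, h3]
    unfold P4 me
    ext <;> simp only <;> ring
  · rw [ce3]
    have h1 : ((((3 : Fin 4)).val : ℕ) : ℤ) = 3 := rfl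
    have h2 : dx 3 = 0 := by simp [dx]
    have h3 : dy 3 = -1 := by simp [dy]
    rw [h1, h2, h3]
    unfold P4 me
    ext <;> simp only <;> ring

/-- The position of a boundary edge. -/
theorem P4_be {u : ℕ → ℤ} (hu : Bd ((Rt (-b) a H : Finset (ℤ × ℤ)) : Set (ℤ × ℤ)) (rN a b H)
    (fun k => rq a b H (k : ZMod (rN a b H))) u 1) {z : ℕ} (hz : z < rN a b H) :
    P4 (be (rq a b H) z) = M4 (rq a b H z) (u z) := by
  obtain ⟨r, h1, h2, h3⟩ := h.be_rq hz
  rw [h1, P4_ce, rq_nat h.a0 hz.le]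
  have h4 := hu.step z
  try simp only at h4
  rw [rq_nat h.a0 hz, rq_nat h.a0 hz.le, rp_step h.a0 h.b0 h.hH0 hz] at h4
  have h5 := add_left_cancel h4
  have h6 := congrArg Prod.fst h5
  have h7 := congrArg Prod.snd h5
  simp only [vec] at h6 h7
  refine Vale.Agent.P167.H871.M4_congr ?_
  have c1 := Vale.Agent.P167.Top.head_cases (u z)
  have c2 := Vale.Agent.P167.Top.head_cases (sd a b H z)
  omega

theorem cast_be_inj {z z' : ℕ} (hz : z < rN a b H) (hz' : z' < rN a b H)
    (he : be (rq a b H) z = be (rq a b H) z') : z = z' :=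
  Vale.Agent.P167.H718.cast_inj hz hz' (be_injective h.poly he)

/-- **Determinism.** As long as the interface from `be 0` has not come back, its turning at the side
number `z` is `tau z`. -/
theorem det {j : ℕ} (hj : ∀ i, 0 < i → i ≤ j → (nx ω)^[i] (be (rq a b H) (0 : ℕ)) ≠
    be (rq a b H) (0 : ℕ)) {z : ℕ} (hz : z < rN a b H)
    (hjz : (nx ω)^[j] (be (rq a b H) (0 : ℕ)) = be (rq a b H) z) :
    tu ω (be (rq a b H) (0 : ℕ)) j = tau a b H n z := by
  have h0 := h.arith
  obtain ⟨u, hu, hus⟩ := exists_u h.a0 h.b0 h.hH0 (a := a) (b := b) (H := H)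
  set e0 := be (rq a b H) (0 : ℕ) with he0
  have he0' := h.ein (z := 0) (by omega) ⟨0, rfl⟩
  rw [← he0] at he0'
  induction j using Nat.strong_induction_on generalizing z with
  | _ j ih =>
    have htu0 : tu ω e0 0 = 0 := by simp [tu]
    have s0 := sd_spec a b H 0
    rcases Nat.even_or_odd z with hze | hzo
    · -- an entry
      have hze' := Nat.even_iff.1 hze
      rcases Nat.eq_zero_or_pos z with rfl | hz0
      · have hj0 : j = 0 := by
          by_contra hne
          exact hj j (by omega) le_rfl hjz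
        subst hj0
        rw [htu0]
        unfold tau
        rw [if_neg (by omega), if_pos (by omega)]
        omega
      · -- the common part
        have key : ∀ z' : ℕ, z' < rN a b H → Odd z' →
            nx ω (nx ω (be (rq a b H) z')) = be (rq a b H) z →
            hdv (nx ω (be (rq a b H) z')) ∉ Rt (-b) a H →
            ∀ t : ℤ, trn ω (be (rq a b H) z') = t → trn ω (nx ω (be (rq a b H) z')) = t →
            tu ω e0 j = tau a b H n z' + 2 * t := by
          intro z' hz' ho' hrun hout t ht1 ht2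
          rcases Nat.lt_or_ge j 2 with hj2 | hj2
          · exfalso
            rcases Nat.eq_zero_or_pos j with rfl | hj1
            · have := h.cast_be_inj (by omega) hz hjz
              omega
            · obtain rfl : j = 1 := by omega
              rw [Function.iterate_one, ← hrun] at hjz
              have := nx_inj ω hjz
              rw [← this] at hout
              exact hout he0'.2.2.1
          · obtain ⟨j', rfl⟩ : ∃ j', j = j' + 2 := ⟨j - 2, by omega⟩
            have hj' : (nx ω)^[j'] e0 = be (rq a b H) z' := by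
              rw [Function.iterate_succ_apply', Function.iterate_succ_apply', ← hrun] at hjz
              exact nx_inj ω (nx_inj ω hjz)
            have h1 := ih j' (by omega) hz' (fun i hi1 hi2 => hj i hi1 (by omega)) hj'
            rw [tu_succ, tu_succ, h1, Function.iterate_succ_apply', hj', ht1, ht2]
            ring
        by_cases hk : z < rN a b H - n
        · obtain ⟨r1, r2, r3, r4⟩ := h.run_free (z := z - 1) (by rw [Nat.odd_iff]; omega) (by omega)
          rw [show z - 1 + 1 = z by omega] at r1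
          have h1 := key (z - 1) (by omega) (by rw [Nat.odd_iff]; omega) r1 r4 1
            (by unfold trn; rw [r2]; rfl) (by unfold trn; rw [r3]; rfl)
          rw [h1]
          have s1 := sd_spec a b H (z - 1)
          have s2 := sd_spec a b H z
          unfold tau
          rw [if_pos (by omega), if_neg (by omega), if_pos hk]
          omega
        · obtain ⟨r1, r2, r3, r4⟩ := h.run_wired (z := z + 1) (by rw [Nat.odd_iff]; omega)
            (by omega) (by omega)
          rw [show z + 1 - 1 = z by omega] at r1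
          have h1 := key (z + 1) (by omega) (by rw [Nat.odd_iff]; omega) r1 r4 (-1)
            (by unfold trn; rw [r2]; rfl) (by unfold trn; rw [r3]; rfl)
          rw [h1]
          have s1 := sd_spec a b H (z + 1)
          have s2 := sd_spec a b H z
          unfold tau
          rw [if_pos (by omega), if_neg (by omega), if_neg hk]
          omega
    · -- an exit
      have hzo' := Nat.odd_iff.1 hzo
      have hex := h.eout hz hzo
      obtain ⟨m, e', hr, he'⟩ := Vale.Agent.P167.H718.run_entry ω (Rt (-b) a H) hex.2.2.2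
      have hm : 1 ≤ m := by
        by_contra hm0
        obtain rfl : m = 0 := by omega
        obtain rfl : e' = be (rq a b H) z := hr.1
        exact he' hex.2.2.1
      have hhd : hdv e' ∈ Rt (-b) a H := hr.2 0 hm
      have hmj : m ≤ j := by
        by_contra hlt
        obtain ⟨l, hl⟩ : ∃ l, m = l + 1 + j := ⟨m - j - 1, by omega⟩
        have h1 : (nx ω)^[j] ((nx ω)^[l + 1] e') = (nx ω)^[j] e0 := by
          rw [← Function.iterate_add_apply, show j + (l + 1) = m by omega, hr.1, hjz]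
        have h2 := ((nx_inj ω).iterate j) h1
        have h3 := hr.2 l (by omega)
        rw [Function.iterate_succ_apply'] at h2
        rw [← h2, tlv_nx] at he0'
        exact he0'.2.2.2 h3
      have hj' : (nx ω)^[j - m] e0 = e' := by
        have h1 : (nx ω)^[m] ((nx ω)^[j - m] e0) = (nx ω)^[m] e' := by
          rw [← Function.iterate_add_apply, show m + (j - m) = j by omega, hr.1, hjz]
        exact ((nx_inj ω).iterate m) h1
      obtain ⟨x, hx, hxe, hxev⟩ := Vale.Agent.P167.H718.exists_in h.poly h.enc hhd he'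
      have hxe2 : Even x := (h.ev hx.le).1 hxev
      have hxe2' := Nat.even_iff.1 hxe2
      subst hxe
      have h1 := ih (j - m) (by omega) hx (fun i hi1 hi2 => hj i hi1 (by omega)) hj'
      have h2 : tu ω e0 j = tu ω e0 (j - m) + ∑ k ∈ range m, trn ω ((nx ω)^[k] (be (rq a b H) x)) := by
        unfold tu
        conv_lhs => rw [show j = (j - m) + m by omega]
        rw [Finset.sum_range_add]
        congr 1
        refine Finset.sum_congr rfl fun k _ => ?_
        rw [add_comm, Function.iterate_add_apply, hj']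
      have h3 := (Vale.Agent.P167.H871.strand_turn (p := rq a b H) (D := Rt (-b) a H) hu hm hx hz
        (h.P4_be hu hx) (by rw [hr.1]; exact h.P4_be hu hz) hr.2 he'
        (by rw [hr.1]; exact hex.2.2.2)).2
      have hxin := h.ein hx hxe2
      have hmem : be (rq a b H) x ∈ eds (Rt (-b) a H) := mem_eds.2 (Or.inl hhd)
      have hA := piece_mem_pcs (ω := ω) hmem
      have hXY : IsXY (rq a b H) (piece ω (Rt (-b) a H) (be (rq a b H) x)) x z :=
        ⟨hx, hz, self_mem_piece hmem, Vale.Agent.P167.H718.mem_piece_of_run hr hmem,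
          hxev, h.nev hz.le hzo⟩
      have hux := hus x hx
      have huz := hus z hz
      rw [h2, h1, h3]
      unfold tau
      rw [if_neg (show ¬ x % 2 = 1 by omega), if_pos hzo']
      by_cases hk : x < rN a b H - n
      · have hPC := PC_iter ω e0 (j - m)
        rw [hj', hxin.1, he0'.1, h.rp0] at hPC
        have hlt := h.ord_free hA hXY hk (PC.symm' hPC)
        rw [if_pos hk, if_pos hlt]
        omega
      · have hDC := DC_iter ω e0 (j - m)
        rw [hj', hxin.2.1, he0'.2.1, show 0 + 1 = 1 from rfl, h.rp1] at hDC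
        have hlt := h.ord_wired hA hXY (by omega) (DC.symm' hDC)
        rw [if_neg hk, if_neg (show ¬ x < z by omega)]
        omega

/-- A boundary edge is on the interface of `be 0` iff its sides are connected to the two arcs. -/
theorem vis_iff {z : ℕ} : (∃ j, (nx ω)^[j] (be (rq a b H) (0 : ℕ)) = be (rq a b H) z) ↔
    PC ω (ls (be (rq a b H) z)) (0, 0) ∧ DC ω (rs (be (rq a b H) z)) (1, 0) := by
  have h0 := h.arith
  have he0 := h.ein (z := 0) (by omega) ⟨0, rfl⟩
  constructor
  · rintro ⟨j, hj⟩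
    have h1 := PC_iter ω (be (rq a b H) (0 : ℕ)) j
    have h2 := DC_iter ω (be (rq a b H) (0 : ℕ)) j
    rw [hj, he0.1, h.rp0] at h1
    rw [hj, he0.2.1, show 0 + 1 = 1 from rfl, h.rp1] at h2
    exact ⟨PC.symm' h1, DC.symm' h2⟩
  · rintro ⟨h1, h2⟩
    obtain ⟨ℓ, hℓ, hmem⟩ := h.good (be (rq a b H) (0 : ℕ))
    refine (mem_loop_iff hℓ hmem).1 ?_
    by_contra hne
    have e1 := s_jump ω ℓ hℓ (be (rq a b H) (0 : ℕ))
    have e2 := s_jump ω ℓ hℓ (be (rq a b H) z)
    rw [if_pos hmem] at e1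
    rw [if_neg hne] at e2
    have e3 := W_PC hℓ (FK.even_ls _) h1
    have e4 := W_DC' hℓ (FK.odd_rs _) h2
    rw [he0.1, h.rp0, he0.2.1, show 0 + 1 = 1 from rfl, h.rp1] at e1
    omega

theorem Ph_be (lam : ℂ) {z : ℕ} (hz : z < rN a b H)
    (hv : ∃ j, (nx ω)^[j] (be (rq a b H) (0 : ℕ)) = be (rq a b H) z) :
    Ph lam ω (be (rq a b H) (0 : ℕ)) (be (rq a b H) z) = lam ^ tau a b H n z := by
  have h1 := hit_spec hv
  rw [Ph_of h1 fun k hk => not_hit hk]
  congr 1
  refine h.det (fun i hi1 hi2 hi3 => ?_) hz h1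
  set m := hit ω (be (rq a b H) (0 : ℕ)) (be (rq a b H) z) with hm
  have h2 : (nx ω)^[m - i] (be (rq a b H) (0 : ℕ)) = be (rq a b H) z := by
    have h3 : (nx ω)^[m - i] ((nx ω)^[i] (be (rq a b H) (0 : ℕ))) = be (rq a b H) z := by
      rw [← Function.iterate_add_apply, show m - i + i = m by omega]
      exact h1
    rwa [hi3] at h3
  exact not_hit (ω := ω) (e := be (rq a b H) (0 : ℕ)) (e' := be (rq a b H) z)
    (k := m - i) (by omega) h2

end Cx

end Vale.Agent.P167.H947.Q
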