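import Vale.Agent.P167.H947.Q.Pf6

/-!
# P167, general `q`, block Q-SRSW: the parafermionic identity on a rectangle
-/

namespace Vale.Agent.P167.H947.Q

open Finset Relation Vale.Agent.P167.FK Vale.Agent.P167.BR Vale.Agent.P167.Top
open Vale.Agent.P145.FB (PStep)
open Vale.Agent.P167.E6 (IsPolygon Encloses dir face)
open Vale.Agent.P167.E2

variable {a b H n : ℕ} {ω : Cfg}

theorem cx_cf (ha : Odd a) (hb : Odd b) (hH : Even H) (hH0 : 0 < H) (hn : Even n) (hnb : n < b)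
    (S : Finset (ℤ × ℤ)) : Cx a b H n (cf (Rt (-b) a H) (ea n) S) :=
  ⟨ha, hb, hH, hH0, hn, hnb, fun v hv => by unfold cf; rw [if_neg hv]⟩

/-! ### The boundary edges -/

namespace Cx

variable (h : Cx a b H n ω)
include h

theorem sum_exs (g : Ed → ℂ) : ∑ z ∈ exs (Rt (-b) a H), g z =
    ∑ z ∈ range (rN a b H), if Odd z then g (be (rq a b H) z) else 0 := by
  classical
  rw [← Finset.sum_filter]
  symm
  refine Finset.sum_bij (fun z _ => be (rq a b H) (z : ℕ)) ?_ ?_ ?_ ?_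
  · intro z hz
    rw [Finset.mem_filter, Finset.mem_range] at hz
    have := h.eout hz.1 hz.2
    exact mem_exs.2 ⟨this.2.2.1, this.2.2.2⟩
  · intro z hz z' hz' he
    rw [Finset.mem_filter, Finset.mem_range] at hz hz'
    exact h.cast_be_inj hz.1 hz'.1 he
  · intro e he
    rw [mem_exs] at he
    obtain ⟨y, h1, h2, h3⟩ := Vale.Agent.P167.H718.exists_out h.poly h.enc he.1 he.2
    refine ⟨y, Finset.mem_filter.2 ⟨Finset.mem_range.2 h1, ?_⟩, h2⟩
    rw [h.ev h1.le, Nat.not_even_iff_odd] at h3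
    exact h3
  · intro z _
    rfl

theorem sum_ens (g : Ed → ℂ) : ∑ z ∈ ens (Rt (-b) a H), g z =
    ∑ z ∈ range (rN a b H), if Even z then g (be (rq a b H) z) else 0 := by
  classical
  rw [← Finset.sum_filter]
  symm
  refine Finset.sum_bij (fun z _ => be (rq a b H) (z : ℕ)) ?_ ?_ ?_ ?_
  · intro z hz
    rw [Finset.mem_filter, Finset.mem_range] at hz
    have := h.ein hz.1 hz.2
    exact mem_ens.2 ⟨this.2.2.1, this.2.2.2⟩
  · intro z hz z' hz' he
    rw [Finset.mem_filter, Finset.mem_range] at hz hz'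
    exact h.cast_be_inj hz.1 hz'.1 he
  · intro e he
    rw [mem_ens] at he
    obtain ⟨y, h1, h2, h3⟩ := Vale.Agent.P167.H718.exists_in h.poly h.enc he.1 he.2
    refine ⟨y, Finset.mem_filter.2 ⟨Finset.mem_range.2 h1, ?_⟩, h2⟩
    exact (h.ev h1.le).1 h3
  · intro z _
    rfl

/-- The four kinds of the boundary edges. -/
theorem vis_out_free {z : ℕ} (ho : Odd z) (hz : z < rN a b H - n) :
    (∃ j, (nx ω)^[j] (be (rq a b H) (0 : ℕ)) = be (rq a b H) z) ↔
      PC ω (rp a b H (z + 1)) (0, 0) := by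
  have h0 := h.eout (z := z) (by omega) ho
  rw [h.vis_iff, h0.1, h0.2.1]
  exact ⟨fun h1 => h1.1, fun h1 => ⟨h1, h.dc_free ho hz⟩⟩

theorem vis_out_wired {z : ℕ} (ho : Odd z) (hz : rN a b H - n ≤ z) (hz2 : z < rN a b H) :
    (∃ j, (nx ω)^[j] (be (rq a b H) (0 : ℕ)) = be (rq a b H) z) ↔
      DC ω (rp a b H z) (1, 0) := by
  have h0 := h.eout (z := z) (by omega) ho
  rw [h.vis_iff, h0.1, h0.2.1]
  refine ⟨fun h1 => h1.2, fun h1 => ⟨h.pc_wired ?_ (by omega) (by omega), h1⟩⟩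
  rw [Nat.odd_iff] at ho
  rw [Nat.even_iff]
  omega

theorem vis_in_free {z : ℕ} (he : Even z) (hz : z < rN a b H - n) :
    (∃ j, (nx ω)^[j] (be (rq a b H) (0 : ℕ)) = be (rq a b H) z) ↔
      PC ω (rp a b H z) (0, 0) := by
  have h0 := h.ein (z := z) (by omega) he
  rw [h.vis_iff, h0.1, h0.2.1]
  have h2 := h.arith
  rw [Nat.even_iff] at he
  exact ⟨fun h1 => h1.1, fun h1 => ⟨h1, h.dc_free (by rw [Nat.odd_iff]; omega) (by omega)⟩⟩

theorem vis_in_wired {z : ℕ} (he : Even z) (hz : rN a b H - n ≤ z) (hz2 : z < rN a b H) :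
    (∃ j, (nx ω)^[j] (be (rq a b H) (0 : ℕ)) = be (rq a b H) z) ↔
      DC ω (rp a b H (z + 1)) (1, 0) := by
  have h0 := h.ein (z := z) (by omega) he
  rw [h.vis_iff, h0.1, h0.2.1]
  exact ⟨fun h1 => h1.2, fun h1 => ⟨h.pc_wired he (by omega) (by omega), h1⟩⟩

open Classical in
theorem Ph_if (lam : ℂ) {z : ℕ} (hz : z < rN a b H) {P : Prop}
    (hP : (∃ j, (nx ω)^[j] (be (rq a b H) (0 : ℕ)) = be (rq a b H) z) ↔ P) :
    Ph lam ω (be (rq a b H) (0 : ℕ)) (be (rq a b H) z) =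
      lam ^ tau a b H n z * (if P then 1 else 0) := by
  by_cases h1 : P
  · rw [if_pos h1, mul_one]
    exact h.Ph_be lam hz (hP.2 h1)
  · rw [if_neg h1, mul_zero]
    exact Ph_zero fun h2 => h1 (hP.1 h2)

end Cx

/-! ### The expectations -/

open Classical in
theorem EC_ind (Q : ℝ) (hQ : 0 < Q) (D : Finset (ℤ × ℤ)) (η : Cfg) (A : Set Cfg) (c : ℂ)
    (F : Cfg → ℂ) (hF : ∀ S ∈ D.powerset, F (cf D η S) = c * (if cf D η S ∈ A then 1 else 0)) :
    EC (Q : ℂ) D η F = (Zq Q D η : ℂ) * (c * (Pr Q D η A : ℂ)) := by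
  have hZ : Zq Q D η ≠ 0 := by
    unfold Zq
    refine (Finset.sum_pos (fun S _ => by positivity) ?_).ne'
    exact ⟨∅, Finset.mem_powerset.2 (Finset.empty_subset _)⟩
  have h1 : (Pr Q D η A : ℂ) = (∑ S ∈ D.powerset, (Q : ℂ) ^ LD D (cf D η S) *
      (if cf D η S ∈ A then 1 else 0)) / (Zq Q D η : ℂ) := by
    unfold Pr Ex
    rw [Complex.ofReal_div, Complex.ofReal_sum]
    congr 1
    refine Finset.sum_congr rfl fun S _ => ?_
    rw [Complex.ofReal_mul, Complex.ofReal_pow]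
    congr 1
    by_cases h2 : cf D η S ∈ A
    · simp [h2]
    · simp [h2]
  rw [h1]
  unfold EC
  have hZ' : (Zq Q D η : ℂ) ≠ 0 := by exact_mod_cast hZ
  rw [mul_div_assoc', mul_div_assoc', mul_div_cancel_left₀ _ hZ', Finset.mul_sum]
  refine Finset.sum_congr rfl fun S hS => ?_
  rw [hF S hS]
  ring

/-- **The complex identity**, with sums over the sides. -/
theorem complex_id (ha : Odd a) (hb : Odd b) (hH : Even H) (hH0 : 0 < H) (hn : Even n)
    (hnb : n < b) {lam : ℂ} {Q : ℝ} (hQ : 0 < Q) (hl : lam ≠ 0) (hlQ : lam + lam⁻¹ = Q)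
    (p d : ℕ → ℝ)
    (hp : ∀ m, p m = Pr Q (Rt (-b) a H) (ea n) {ω | PC ω (rp a b H m) (0, 0)})
    (hd : ∀ m, d m = Pr Q (Rt (-b) a H) (ea n) {ω | DC ω (rp a b H m) (1, 0)}) :
    (∑ z ∈ range (rN a b H - n), if Odd z then lam ^ tau a b H n z * (p (z + 1) : ℂ) else 0) +
      (∑ z ∈ Ico (rN a b H - n) (rN a b H), if Odd z then lam ^ tau a b H n z * (d z : ℂ) else 0) =
    (∑ z ∈ range (rN a b H - n), if Even z then lam ^ tau a b H n z * (p z : ℂ) else 0) +
      (∑ z ∈ Ico (rN a b H - n) (rN a b H),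
        if Even z then lam ^ tau a b H n z * (d (z + 1) : ℂ) else 0) := by
  classical
  set D := Rt (-b) a H with hD
  have hcx := fun S => cx_cf ha hb hH hH0 hn hnb S
  have hN : 0 < rN a b H := by have := (hcx ∅).arith; omega
  have hc := contour (D := D) (η := ea n) (e := be (rq a b H) (0 : ℕ)) hl (good_ea n)
    ((hcx ∅).ein (z := 0) hN ⟨0, rfl⟩).2.2.2 (fun S _ ℓ hℓ => by
      rw [((hcx ∅).ein (z := 0) hN ⟨0, rfl⟩).2.1, show 0 + 1 = 1 from rfl, (hcx ∅).rp1]
      exact (hcx S).far hℓ)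
  rw [(hcx ∅).sum_exs, (hcx ∅).sum_ens, hlQ] at hc
  have hZ : (Zq Q D (ea n) : ℂ) ≠ 0 := by
    have : 0 < Zq Q D (ea n) := by
      unfold Zq
      exact Finset.sum_pos (fun S _ => by positivity)
        ⟨∅, Finset.mem_powerset.2 (Finset.empty_subset _)⟩
    exact_mod_cast this.ne'
  refine mul_left_cancel₀ hZ ?_
  have hr : range (rN a b H) = Ico 0 (rN a b H) := Finset.range_eq_Ico _
  have e1 : ∀ f : ℕ → ℂ, ∑ z ∈ range (rN a b H), f z =
      ∑ z ∈ range (rN a b H - n), f z + ∑ z ∈ Ico (rN a b H - n) (rN a b H), f z := by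
    intro f
    rw [Finset.range_eq_Ico, Finset.range_eq_Ico, Finset.sum_Ico_consecutive f (by omega) (by omega)]
  rw [e1, e1] at hc
  rw [mul_add, mul_add, Finset.mul_sum, Finset.mul_sum, Finset.mul_sum, Finset.mul_sum]
  convert hc using 2
  · refine Finset.sum_congr rfl fun z hz => ?_
    rw [Finset.mem_range] at hz
    by_cases ho : Odd z
    · rw [if_pos ho, if_pos ho, hp]
      symm
      refine EC_ind Q hQ D (ea n) {ω | PC ω (rp a b H (z + 1)) (0, 0)} _ _ fun S _ => ?_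
      exact (hcx S).Ph_if lam (by omega) ((hcx S).vis_out_free ho hz)
    · rw [if_neg ho, if_neg ho, mul_zero]
  · refine Finset.sum_congr rfl fun z hz => ?_
    rw [Finset.mem_Ico] at hz
    by_cases ho : Odd z
    · rw [if_pos ho, if_pos ho, hd]
      symm
      refine EC_ind Q hQ D (ea n) {ω | DC ω (rp a b H z) (1, 0)} _ _ fun S _ => ?_
      exact (hcx S).Ph_if lam (by omega) ((hcx S).vis_out_wired ho hz.1 hz.2)
    · rw [if_neg ho, if_neg ho, mul_zero]
  · refine Finset.sum_congr rfl fun z hz => ?_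
    rw [Finset.mem_range] at hz
    by_cases ho : Even z
    · rw [if_pos ho, if_pos ho, hp]
      symm
      refine EC_ind Q hQ D (ea n) {ω | PC ω (rp a b H z) (0, 0)} _ _ fun S _ => ?_
      exact (hcx S).Ph_if lam (by omega) ((hcx S).vis_in_free ho hz)
    · rw [if_neg ho, if_neg ho, mul_zero]
  · refine Finset.sum_congr rfl fun z hz => ?_
    rw [Finset.mem_Ico] at hz
    by_cases ho : Even z
    · rw [if_pos ho, if_pos ho, hd]
      symm
      refine EC_ind Q hQ D (ea n) {ω | DC ω (rp a b H (z + 1)) (1, 0)} _ _ fun S _ => ?_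
      exact (hcx S).Ph_if lam (by omega) ((hcx S).vis_in_wired ho hz.1 hz.2)
    · rw [if_neg ho, if_neg ho, mul_zero]

end Vale.Agent.P167.H947.Q
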